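import Vale.Agent.P244.FlowDefs

/-! # P244 / H426 / Defs : definitions of the statement on products -/

open scoped Manifold ContDiff
open Set Module

namespace Vale.Agent.P244.H426

open Vale.Agent.P244.Flow

/-- The product manifold structure of `M × N`: its charts are the products of charts. -/
@[reducible] def pch (V W M N : Type*) [NormedAddCommGroup V] [NormedAddCommGroup W]
    [TopologicalSpace M] [ChartedSpace V M] [TopologicalSpace N] [ChartedSpace W N] :
    ChartedSpace (V × W) (M × N) :=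
  prodChartedSpace V M W N

attribute [local instance] pch

/-- The basis `(v_i, 0)`, `(0, w_j)` of `V × W`. -/
noncomputable def pb {V W : Type*} [NormedAddCommGroup V] [NormedSpace ℝ V]
    [NormedAddCommGroup W] [NormedSpace ℝ W] {m p : ℕ} (v : Basis (Fin m) ℝ V)
    (w : Basis (Fin p) ℝ W) : Basis (Fin (m + p)) ℝ (V × W) :=
  (v.prod w).reindex finSumFinEquiv

section one

variable {V M : Type*} [NormedAddCommGroup V] [NormedSpace ℝ V] [TopologicalSpace M]
  [ChartedSpace V M] {n : ℕ}

/-- The flow degenerates: some tangent vector `u ≠ 0` has infimal length `0`. -/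
def Degenerates (g : ℝ → Tensor V M) (T : ℝ) : Prop :=
  ∃ (x : M) (u : TangentSpace 𝓘(ℝ, V) x), u ≠ 0 ∧ ∀ δ > 0, ∃ t ∈ Ico 0 T, val (g t) x u u < δ

/-- The metric `g` at `x` on the vector `∑ a_i ∂_i`, in the preferred chart at `x`. -/
noncomputable def metVal (v : Fin n → V) (g : Tensor V M) (x : M) (a : Fin n → ℝ) : ℝ :=
  ∑ i, ∑ j, a i * a j * comp v g (chartAt V x) (chartAt V x x) i j

/-- The Ricci tensor of `g` at `x` on the vector `∑ a_i ∂_i`, in the preferred chart at `x`. -/
noncomputable def ricVal (v : Fin n → V) (g : Tensor V M) (x : M) (a : Fin n → ℝ) : ℝ :=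
  ∑ i, ∑ j, a i * a j * ricci v (comp v g (chartAt V x)) i j (chartAt V x x)

/-- The Ricci curvature of `g(t)`, `0 ≤ t < T`, is unbounded above and unbounded below: for every
`C` the inequality `Ric ≤ C g` fails somewhere, and so does `Ric ≥ -C g`. -/
def RicciUnbounded (v : Fin n → V) (g : ℝ → Tensor V M) (T : ℝ) : Prop :=
  ∀ C : ℝ, (∃ t ∈ Ico 0 T, ∃ x a, C * metVal v (g t) x a < ricVal v (g t) x a) ∧
    ∃ t ∈ Ico 0 T, ∃ x a, ricVal v (g t) x a < -C * metVal v (g t) x a

/-- The scalar curvature of `g(t)` is bounded on `M × [0,T)`. -/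
def BoundedScalar (v : Fin n → V) (g : ℝ → Tensor V M) (T : ℝ) : Prop :=
  ∃ C : ℝ, ∀ t ∈ Ico 0 T, ∀ x, |scalarCurvature v (g t) x| ≤ C

/-- A Ricci flow on `[0,T)` with bounded scalar curvature which is singular at `T`: it does not
extend past `T`, collapses a tangent vector and has Ricci curvature unbounded above and below. -/
structure Singular (v : Fin n → V) (g : ℝ → Tensor V M) (T : ℝ) : Prop where
  flow : IsRicciFlow v g T
  bounded : BoundedScalar v g T
  maximal : ¬ ExtendsPast v g T
  collapse : Degenerates g T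
  ricci : RicciUnbounded v g T

end one

/-- `G` is the product metric `g + h` on `M × N`. -/
def IsProd {V M W N : Type*} [NormedAddCommGroup V] [NormedSpace ℝ V] [TopologicalSpace M]
    [ChartedSpace V M] [NormedAddCommGroup W] [NormedSpace ℝ W] [TopologicalSpace N]
    [ChartedSpace W N] (G : Tensor (V × W) (M × N)) (g : Tensor V M) (h : Tensor W N) : Prop :=
  ∀ (x : M) (y : N) (a b : V) (c d : W),
    val G (x, y) (a, c) (b, d) = val g x a b + val h y c d

/-- The product of the flow `g` on `M` with EVERY Ricci flow `h` with bounded scalar curvature on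
any nonempty manifold `N` (closed or not) is singular at `T` with bounded scalar curvature. -/
def SingularTimesAll {V M : Type} [NormedAddCommGroup V] [NormedSpace ℝ V] [TopologicalSpace M]
    [ChartedSpace V M] {n : ℕ} (v : Basis (Fin n) ℝ V) (g : ℝ → Tensor V M) (T : ℝ) : Prop :=
  ∀ (k : ℕ) (W : Type) [NormedAddCommGroup W] [NormedSpace ℝ W] (w : Basis (Fin k) ℝ W)
    (N : Type) [TopologicalSpace N] [ChartedSpace W N] [IsManifold 𝓘(ℝ, W) ∞ N] [Nonempty N]
    (h : ℝ → Tensor W N), IsRicciFlow w h T → BoundedScalar w h T →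
    ∃ G : ℝ → Tensor (V × W) (M × N), (∀ t, IsProd (G t) (g t) (h t)) ∧ Singular (pb v w) G T

/-- The scalar-curvature extension conjecture, as posed in Q1. -/
def ExtensionConjecture : Prop :=
  ∀ (n : ℕ), 4 ≤ n → ∀ (V : Type) [NormedAddCommGroup V] [NormedSpace ℝ V]
    (v : Basis (Fin n) ℝ V) (M : Type) [TopologicalSpace M] [ChartedSpace V M]
    [IsManifold 𝓘(ℝ, V) ∞ M] [CompactSpace M] [T2Space M] [ConnectedSpace M]
    (T : ℝ), 0 < T → ∀ g : ℝ → Tensor V M, IsRicciFlow v g T → BoundedScalar v g T →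
    ExtendsPast v g T

/-- Some closed connected `n`-manifold has a Ricci flow with bounded scalar curvature which is
singular at time `T`. -/
def ExistsSingular (n : ℕ) (T : ℝ) : Prop :=
  ∃ (V : Type) (_ : NormedAddCommGroup V) (_ : NormedSpace ℝ V) (v : Basis (Fin n) ℝ V)
    (M : Type) (_ : TopologicalSpace M) (_ : ChartedSpace V M) (_ : IsManifold 𝓘(ℝ, V) ∞ M)
    (_ : CompactSpace M) (_ : T2Space M) (_ : ConnectedSpace M) (g : ℝ → Tensor V M),
    Singular v g T

/-- The model space `ℝ^21 × ℝ^20` of `S^21 × S^20`. -/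
def V0 : Type := EuclideanSpace ℝ (Fin 21) × EuclideanSpace ℝ (Fin 20)

noncomputable instance instNV0 : NormedAddCommGroup V0 :=
  Prod.normedAddCommGroup (E := EuclideanSpace ℝ (Fin 21)) (F := EuclideanSpace ℝ (Fin 20))

noncomputable instance instSV0 : NormedSpace ℝ V0 :=
  Prod.normedSpace (𝕜 := ℝ) (E := EuclideanSpace ℝ (Fin 21)) (F := EuclideanSpace ℝ (Fin 20))

/-- The closed manifold `S^21 × S^20` (product of unit spheres, with Mathlib's charts). -/
def M0 : Type := Metric.sphere (0 : EuclideanSpace ℝ (Fin 22)) 1 ×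
  Metric.sphere (0 : EuclideanSpace ℝ (Fin 21)) 1

instance instTM0 : TopologicalSpace M0 :=
  instTopologicalSpaceProd (X := Metric.sphere (0 : EuclideanSpace ℝ (Fin 22)) 1)
    (Y := Metric.sphere (0 : EuclideanSpace ℝ (Fin 21)) 1)

noncomputable instance instCM0 : ChartedSpace V0 M0 :=
  pch (EuclideanSpace ℝ (Fin 21)) (EuclideanSpace ℝ (Fin 20))
    (Metric.sphere (0 : EuclideanSpace ℝ (Fin 22)) 1)
    (Metric.sphere (0 : EuclideanSpace ℝ (Fin 21)) 1)

/-- The standard basis of `ℝ^21 × ℝ^20`. -/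
noncomputable def v0 : Basis (Fin 41) ℝ V0 :=
  pb (EuclideanSpace.basisFun (Fin 21) ℝ).toBasis (EuclideanSpace.basisFun (Fin 20) ℝ).toBasis

end Vale.Agent.P244.H426
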