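import Vale.Agent.P244.H426.Inst

/-! # P244 / H426 / Ric : a degenerating flow with bounded scalar curvature has Ricci curvature
unbounded above and below -/

open scoped Manifold ContDiff Topology MatrixOrder
open Set Module Filter

set_option linter.unusedSectionVars false

namespace Vale.Agent.P244.H426

open Vale.Agent.P244.Flow

/-! ### linear algebra -/

section lin

variable {n : ℕ}

/-- quadratic form of a matrix -/
def qf (A : Matrix (Fin n) (Fin n) ℝ) (a : Fin n → ℝ) : ℝ := ∑ i, ∑ j, a i * a j * A i j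

/-- bilinear form of a matrix -/
def bf (A : Matrix (Fin n) (Fin n) ℝ) (a b : Fin n → ℝ) : ℝ := ∑ i, ∑ j, a i * b j * A i j

theorem bf_self (A : Matrix (Fin n) (Fin n) ℝ) (a : Fin n → ℝ) : bf A a a = qf A a := rfl

theorem bf_add_left (A : Matrix (Fin n) (Fin n) ℝ) (a b c : Fin n → ℝ) :
    bf A (a + b) c = bf A a c + bf A b c := by
  simp only [bf, Pi.add_apply, ← Finset.sum_add_distrib]
  refine Finset.sum_congr rfl fun i _ => Finset.sum_congr rfl fun j _ => by ring

theorem bf_add_right (A : Matrix (Fin n) (Fin n) ℝ) (a b c : Fin n → ℝ) :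
    bf A a (b + c) = bf A a b + bf A a c := by
  simp only [bf, Pi.add_apply, ← Finset.sum_add_distrib]
  refine Finset.sum_congr rfl fun i _ => Finset.sum_congr rfl fun j _ => by ring

theorem bf_smul_left (A : Matrix (Fin n) (Fin n) ℝ) (s : ℝ) (a b : Fin n → ℝ) :
    bf A (s • a) b = s * bf A a b := by
  simp only [bf, Pi.smul_apply, smul_eq_mul, Finset.mul_sum]
  refine Finset.sum_congr rfl fun i _ => Finset.sum_congr rfl fun j _ => by ring

theorem bf_smul_right (A : Matrix (Fin n) (Fin n) ℝ) (s : ℝ) (a b : Fin n → ℝ) :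
    bf A a (s • b) = s * bf A a b := by
  simp only [bf, Pi.smul_apply, smul_eq_mul, Finset.mul_sum]
  refine Finset.sum_congr rfl fun i _ => Finset.sum_congr rfl fun j _ => by ring

theorem bf_comm {A : Matrix (Fin n) (Fin n) ℝ} (hA : ∀ i j, A i j = A j i) (a b : Fin n → ℝ) :
    bf A a b = bf A b a := by
  simp only [bf]
  rw [Finset.sum_comm]
  refine Finset.sum_congr rfl fun i _ => Finset.sum_congr rfl fun j _ => ?_
  rw [hA j i]
  ring

/-- Cauchy-Schwarz -/
theorem bf_sq_le {A : Matrix (Fin n) (Fin n) ℝ} (hA : ∀ i j, A i j = A j i)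
    (hp : ∀ a, 0 ≤ qf A a) (a b : Fin n → ℝ) : bf A a b ^ 2 ≤ qf A a * qf A b := by
  have h1 : ∀ s : ℝ, 0 ≤ qf A b * (s * s) + 2 * bf A a b * s + qf A a := by
    intro s
    have h2 := hp (a + s • b)
    rw [← bf_self, bf_add_left, bf_add_right, bf_add_right, bf_smul_left, bf_smul_left,
      bf_smul_right, bf_smul_right, bf_self, bf_self, bf_comm hA b a] at h2
    linarith
  have h3 := discrim_le_zero h1
  rw [discrim] at h3
  nlinarith

theorem bf_mulVec (A : Matrix (Fin n) (Fin n) ℝ) (a b : Fin n → ℝ) :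
    bf A a b = ∑ i, a i * (A.mulVec b) i := by
  simp only [bf, Matrix.mulVec, dotProduct, Finset.mul_sum]
  refine Finset.sum_congr rfl fun i _ => Finset.sum_congr rfl fun j _ => by ring

/-- If `S ≥ 0` (as a quadratic form) and `G > 0`, then `S ≤ tr(G⁻¹ S) G`. -/
theorem qf_le_trace {G S : Matrix (Fin n) (Fin n) ℝ} (hG : ∀ i j, G i j = G j i)
    (hu : IsUnit G.det) (hp : ∀ a, 0 ≤ qf G a) (hS : ∀ a, 0 ≤ qf S a) (a : Fin n → ℝ) :
    qf S a ≤ (∑ i, ∑ j, G⁻¹ i j * S i j) * qf G a := by
  -- symmetrize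
  set S' : Matrix (Fin n) (Fin n) ℝ := Matrix.of fun i j => (S i j + S j i) / 2 with hS'
  have hGi : ∀ i j, G⁻¹ i j = G⁻¹ j i := by
    have h1 : G.transpose = G := by ext i j; exact hG j i
    have h2 : (G⁻¹).transpose = G⁻¹ := by rw [Matrix.transpose_nonsing_inv, h1]
    intro i j
    conv_lhs => rw [← h2]
    rfl
  have q1 : ∀ a, qf S' a = qf S a := by
    intro a
    have h1 : qf S' a = (∑ i, ∑ j, a i * a j * S i j) / 2 + (∑ i, ∑ j, a i * a j * S j i) / 2 := by
      simp only [qf, hS', Matrix.of_apply, Finset.sum_div, ← Finset.sum_add_distrib]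
      refine Finset.sum_congr rfl fun i _ => Finset.sum_congr rfl fun j _ => by ring
    have h2 : ∑ i, ∑ j, a i * a j * S j i = ∑ i, ∑ j, a i * a j * S i j := by
      rw [Finset.sum_comm]
      refine Finset.sum_congr rfl fun i _ => Finset.sum_congr rfl fun j _ => by ring
    rw [h1, h2]
    unfold qf
    ring
  have q2 : ∑ i, ∑ j, G⁻¹ i j * S i j = ∑ i, ∑ j, G⁻¹ i j * S' i j := by
    have h1 : ∑ i, ∑ j, G⁻¹ i j * S' i j =
        (∑ i, ∑ j, G⁻¹ i j * S i j) / 2 + (∑ i, ∑ j, G⁻¹ i j * S j i) / 2 := by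
      simp only [hS', Matrix.of_apply, Finset.sum_div, ← Finset.sum_add_distrib]
      refine Finset.sum_congr rfl fun i _ => Finset.sum_congr rfl fun j _ => by ring
    have h2 : ∑ i, ∑ j, G⁻¹ i j * S j i = ∑ i, ∑ j, G⁻¹ i j * S i j := by
      rw [Finset.sum_comm]
      refine Finset.sum_congr rfl fun i _ => Finset.sum_congr rfl fun j _ => ?_
      rw [hGi j i]
    rw [h1, h2]
    ring
  have hpsd : S'.PosSemidef := by
    refine Matrix.PosSemidef.of_dotProduct_mulVec_nonneg ?_ ?_
    · ext i j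
      simp only [hS', Matrix.conjTranspose_apply, Matrix.of_apply, star_trivial]
      ring
    · intro x
      have h1 := hS x
      rw [← q1, ← bf_self, bf_mulVec] at h1
      simpa [dotProduct] using h1
  obtain ⟨B, hB⟩ := CStarAlgebra.nonneg_iff_eq_star_mul_self.mp hpsd.nonneg
  have e1 : ∀ i j, S' i j = ∑ r, B r i * B r j := by
    intro i j
    rw [hB, Matrix.star_eq_conjTranspose, Matrix.mul_apply]
    simp
  have e2 : qf S' a = ∑ r, (∑ i, a i * B r i) ^ 2 := by
    have h1 : ∀ r, (∑ i, a i * B r i) ^ 2 = ∑ i, ∑ j, a i * a j * (B r i * B r j) := by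
      intro r
      rw [sq, Finset.sum_mul_sum]
      refine Finset.sum_congr rfl fun i _ => Finset.sum_congr rfl fun j _ => by ring
    simp only [qf, e1, h1, Finset.mul_sum]
    conv_rhs => rw [Finset.sum_comm]
    refine Finset.sum_congr rfl fun i _ => ?_
    rw [Finset.sum_comm]
  have e3 : ∑ i, ∑ j, G⁻¹ i j * S' i j = ∑ r, qf G⁻¹ (fun i => B r i) := by
    simp only [qf, e1, Finset.mul_sum]
    conv_rhs => rw [Finset.sum_comm]
    refine Finset.sum_congr rfl fun i _ => ?_
    rw [Finset.sum_comm]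
    refine Finset.sum_congr rfl fun r _ => Finset.sum_congr rfl fun j _ => by ring
  -- Cauchy-Schwarz
  have cs : ∀ b : Fin n → ℝ, (∑ i, a i * b i) ^ 2 ≤ qf G⁻¹ b * qf G a := by
    intro b
    have h1 : G.mulVec (G⁻¹.mulVec b) = b := by
      rw [Matrix.mulVec_mulVec, Matrix.mul_nonsing_inv _ hu, Matrix.one_mulVec]
    have h2 : bf G a (G⁻¹.mulVec b) = ∑ i, a i * b i := by
      rw [bf_mulVec, h1]
    have h3 : qf G (G⁻¹.mulVec b) = qf G⁻¹ b := by
      rw [← bf_self, bf_mulVec, h1, ← bf_self, bf_mulVec]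
      refine Finset.sum_congr rfl fun i _ => by ring
    have h4 := bf_sq_le hG hp a (G⁻¹.mulVec b)
    rw [h2, h3] at h4
    linarith
  rw [← q1, q2, e2, e3, Finset.sum_mul]
  exact Finset.sum_le_sum fun r _ => cs _

end lin

variable {V : Type*} [NormedAddCommGroup V] [NormedSpace ℝ V] {n : ℕ}
  {M : Type*} [TopologicalSpace M] [ChartedSpace V M]

/-- coordinates of a tangent vector in the preferred chart -/
theorem exists_coord [IsManifold 𝓘(ℝ, V) ∞ M] (v : Basis (Fin n) ℝ V) (x : M)
    (u : TangentSpace 𝓘(ℝ, V) x) : ∃ a : Fin n → ℝ, ∀ g : Tensor V M,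
      val g x u u = metVal v g x a := by
  set e := chartAt V x with he
  set y := e x with hy
  have hxy : e.symm y = x := e.left_inv (mem_chart_source V x)
  have h0 : IsManifold 𝓘(ℝ, V) 1 M := IsManifold.of_le (n := ∞) (by simp)
  obtain ⟨z, hz⟩ : ∃ z : V, dsym e y z = (u : V) := by
    have h1 := (mdifferentiable_chart (I := 𝓘(ℝ, V)) x).symm_comp_deriv
      (mem_chart_source V x)
    refine ⟨mfderiv 𝓘(ℝ, V) 𝓘(ℝ, V) (chartAt V x) x u, ?_⟩
    have h2 := congrArg (fun L => L u) h1
    exact h2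
  refine ⟨fun i => v.repr z i, fun g => ?_⟩
  have key : ∀ (x' : M) (_ : e.symm y = x'), gAt g x' (dsym e y z) (dsym e y z) =
      ∑ i, ∑ j, v.repr z i * v.repr z j * comp v g e y i j := by
    rintro x' rfl
    have hz' : z = ∑ i, v.repr z i • v i := (v.sum_repr z).symm
    conv_lhs => rw [hz']
    simp only [map_sum, map_smul, sum_apply, smul_apply, smul_eq_mul, comp_eq_gAt,
      Finset.mul_sum]
    rw [Finset.sum_comm]
    refine Finset.sum_congr rfl (fun i _ => Finset.sum_congr rfl (fun j _ => ?_))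
    ring
  have h3 := key x hxy
  rw [hz] at h3
  exact h3

theorem metVal_deriv {v : Fin n → V} {g : ℝ → Tensor V M} {T : ℝ} (hg : IsRicciFlow v g T)
    (x : M) (a : Fin n → ℝ) {t : ℝ} (ht : t ∈ Ico 0 T) :
    HasDerivWithinAt (fun s => metVal v (g s) x a) (-2 * ricVal v (g t) x a) (Ico 0 T) t := by
  have h1 : ∀ i ∈ (Finset.univ : Finset (Fin n)), ∀ j ∈ (Finset.univ : Finset (Fin n)),
      HasDerivWithinAt (fun s => a i * a j * comp v (g s) (chartAt V x) (chartAt V x x) i j)
        (a i * a j * (-2 * ricci v (comp v (g t) (chartAt V x)) i j (chartAt V x x)))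
        (Ico 0 T) t := fun i _ j _ =>
    (hg.flow _ (chart_mem_atlas V x) _ (mem_chart_target V x) i j t ht).const_mul _
  have h2 := HasDerivWithinAt.fun_sum (u := (Finset.univ : Finset (Fin n))) fun i hi =>
    HasDerivWithinAt.fun_sum (u := (Finset.univ : Finset (Fin n))) fun j hj => h1 i hi j hj
  refine h2.congr_deriv ?_
  unfold ricVal
  rw [Finset.mul_sum]
  refine Finset.sum_congr rfl fun i _ => ?_
  rw [Finset.mul_sum]
  refine Finset.sum_congr rfl fun j _ => by ring

/-- Along a degenerating Ricci flow the Ricci curvature is unbounded above. -/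
theorem Degenerates.ric_above [IsManifold 𝓘(ℝ, V) ∞ M] (v : Basis (Fin n) ℝ V)
    {g : ℝ → Tensor V M} {T : ℝ} (hT : 0 < T) (hg : IsRicciFlow v g T) (hd : Degenerates g T)
    (C : ℝ) : ∃ t ∈ Ico 0 T, ∃ x a, C * metVal v (g t) x a < ricVal v (g t) x a := by
  by_contra hcon
  push Not at hcon
  obtain ⟨x, u, hu, hd⟩ := hd
  obtain ⟨a, ha⟩ := exists_coord v x u
  set f : ℝ → ℝ := fun s => metVal v (g s) x a with hf
  have hder : ∀ t ∈ Ico 0 T, HasDerivWithinAt (fun s => f s * Real.exp (2 * C * s))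
      ((-2 * ricVal v (g t) x a) * Real.exp (2 * C * t) +
        f t * (Real.exp (2 * C * t) * (2 * C))) (Ico 0 T) t := by
    intro t ht
    have h1 : HasDerivWithinAt (fun s : ℝ => Real.exp (2 * C * s))
        (Real.exp (2 * C * t) * (2 * C)) (Ico 0 T) t := by
      have h2 : HasDerivWithinAt (fun s : ℝ => 2 * C * s) (2 * C) (Ico 0 T) t := by
        simpa using (hasDerivWithinAt_id t (Ico 0 T)).const_mul (2 * C)
      exact h2.exp
    exact (metVal_deriv hg x a ht).mul h1
  have hmono : MonotoneOn (fun s => f s * Real.exp (2 * C * s)) (Ico 0 T) := by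
    refine monotoneOn_of_deriv_nonneg (convex_Ico 0 T)
      (fun t ht => (hder t ht).continuousWithinAt) (fun t ht => ?_) (fun t ht => ?_)
    · have ht' : t ∈ Ico 0 T := interior_subset ht
      exact ((hder t ht').mono interior_subset).differentiableWithinAt
    · have ht' : t ∈ Ico 0 T := interior_subset ht
      have h1 := (hder t ht').hasDerivAt (mem_interior_iff_mem_nhds.1 ht)
      rw [h1.deriv]
      have h2 := hcon t ht' x a
      have h3 := Real.exp_pos (2 * C * t)
      have h4 : (-2 * ricVal v (g t) x a) * Real.exp (2 * C * t) +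
          f t * (Real.exp (2 * C * t) * (2 * C)) =
          2 * Real.exp (2 * C * t) * (C * f t - ricVal v (g t) x a) := by ring
      rw [h4]
      exact mul_nonneg (by positivity) (sub_nonneg.2 h2)
  have h0 : (0 : ℝ) ∈ Ico 0 T := ⟨le_rfl, hT⟩
  have hf0 : 0 < f 0 := by
    have := hg.pos 0 h0 x u hu
    rwa [ha (g 0)] at this
  have hδ : 0 < f 0 * Real.exp (-(2 * |C| * T)) := mul_pos hf0 (Real.exp_pos _)
  obtain ⟨t, ht, hlt⟩ := hd _ hδ
  rw [ha (g t)] at hlt
  have h1 := hmono h0 ht ht.1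
  simp only [mul_zero, Real.exp_zero, mul_one] at h1
  have h2 : f t * Real.exp (2 * C * t) < f 0 * Real.exp (-(2 * |C| * T)) *
      Real.exp (2 * C * t) := mul_lt_mul_of_pos_right hlt (Real.exp_pos _)
  have h3 : Real.exp (-(2 * |C| * T)) * Real.exp (2 * C * t) ≤ 1 := by
    rw [← Real.exp_add]
    apply Real.exp_le_one_iff.2
    have h4 : C * t ≤ |C| * T := by
      calc C * t ≤ |C| * t := mul_le_mul_of_nonneg_right (le_abs_self C) ht.1
        _ ≤ |C| * T := mul_le_mul_of_nonneg_left ht.2.le (abs_nonneg C)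
    linarith
  have h5 : f 0 * Real.exp (-(2 * |C| * T)) * Real.exp (2 * C * t) ≤ f 0 := by
    rw [mul_assoc]
    exact mul_le_of_le_one_right hf0.le h3
  linarith

/-- With bounded scalar curvature it is also unbounded below. -/
theorem Degenerates.ricciUnbounded [IsManifold 𝓘(ℝ, V) ∞ M] (v : Basis (Fin n) ℝ V)
    {g : ℝ → Tensor V M} {T : ℝ} (hT : 0 < T) (hg : IsRicciFlow v g T) (hd : Degenerates g T)
    (hb : ∃ C : ℝ, ∀ t ∈ Ico 0 T, ∀ x, |scalarCurvature v (g t) x| ≤ C) :
    RicciUnbounded v g T := by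
  intro C
  refine ⟨hd.ric_above v hT hg C, ?_⟩
  by_contra hcon
  push Not at hcon
  obtain ⟨D, hD⟩ := hb
  obtain ⟨t, ht, x, a, hlt⟩ := hd.ric_above v hT hg (D + n * C - C)
  set G := comp v (g t) (chartAt V x) (chartAt V x x) with hG
  set S : Matrix (Fin n) (Fin n) ℝ := Matrix.of fun i j =>
    ricci v (comp v (g t) (chartAt V x)) i j (chartAt V x x) + C * G i j with hS
  have hsymm : ∀ i j, G i j = G j i := fun i j => hg.symm t ht _ _ _
  have hu := isUnit_comp v (g t) (hg.pos t ht) (chart_mem_atlas V x) (mem_chart_target V x)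
  have hqS : ∀ b, qf S b = ricVal v (g t) x b + C * metVal v (g t) x b := by
    intro b
    unfold qf ricVal metVal
    rw [Finset.mul_sum, ← Finset.sum_add_distrib]
    refine Finset.sum_congr rfl fun i _ => ?_
    rw [Finset.mul_sum, ← Finset.sum_add_distrib]
    refine Finset.sum_congr rfl fun j _ => ?_
    rw [hS, Matrix.of_apply]
    ring
  have hqG : ∀ b, qf G b = metVal v (g t) x b := fun b => rfl
  have hGnn : ∀ b, 0 ≤ qf G b := by
    intro b
    have h1 : qf G b = gAt (g t) ((chartAt V x).symm (chartAt V x x))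
        (dsym (chartAt V x) (chartAt V x x) (∑ i, b i • v i))
        (dsym (chartAt V x) (chartAt V x x) (∑ i, b i • v i)) := by
      simp only [map_sum, map_smul, sum_apply, smul_apply, smul_eq_mul, qf, hG,
        comp_eq_gAt, Finset.mul_sum]
      rw [Finset.sum_comm]
      refine Finset.sum_congr rfl (fun i _ => Finset.sum_congr rfl (fun j _ => ?_))
      ring
    rw [h1]
    rcases eq_or_ne (dsym (chartAt V x) (chartAt V x x) (∑ i, b i • v i)) 0 with h2 | h2
    · rw [h2]; simp
    · exact (hg.pos t ht _ _ h2).le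
  have hSnn : ∀ b, 0 ≤ qf S b := by
    intro b
    rw [hqS]
    have := hcon t ht x b
    linarith
  have h1 := qf_le_trace hsymm hu hGnn hSnn a
  have htr : ∑ i, ∑ j, G⁻¹ i j * S i j = scalarCurvature v (g t) x + n * C := by
    have h2 : ∀ i, ∑ j, G⁻¹ i j * S i j =
        (∑ j, G⁻¹ i j * ricci v (comp v (g t) (chartAt V x)) i j (chartAt V x x)) + C := by
      intro i
      have h3 : ∑ j, G⁻¹ i j * (C * G i j) = C := by
        have h4 : ∑ j, G⁻¹ i j * (C * G i j) = C * (G⁻¹ * G) i i := by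
          rw [Matrix.mul_apply, Finset.mul_sum]
          refine Finset.sum_congr rfl fun j _ => ?_
          rw [hsymm i j]
          ring
        rw [h4, Matrix.nonsing_inv_mul G hu, Matrix.one_apply_eq, mul_one]
      conv_rhs => rw [← h3]
      rw [← Finset.sum_add_distrib]
      refine Finset.sum_congr rfl fun j _ => ?_
      rw [hS, Matrix.of_apply]
      ring
    simp only [h2, Finset.sum_add_distrib, Finset.sum_const, Finset.card_univ, Fintype.card_fin,
      nsmul_eq_mul]
    rfl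
  rw [htr, hqS, hqG] at h1
  have h5 := (abs_le.1 (hD t ht x)).2
  have h6 := mul_le_mul_of_nonneg_right h5 (hGnn a)
  rw [hqG] at h6
  nlinarith

/-- Products with everything. -/
theorem singularTimesAll {V M : Type} [NormedAddCommGroup V] [NormedSpace ℝ V]
    [TopologicalSpace M] [ChartedSpace V M] [IsManifold 𝓘(ℝ, V) ∞ M] {n : ℕ}
    (v : Basis (Fin n) ℝ V) {g : ℝ → Tensor V M} {T : ℝ} (hT : 0 < T) (hg : IsRicciFlow v g T)
    (hb : BoundedScalar v g T) (hd : Degenerates g T) : SingularTimesAll v g T := by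
  intro k W _ _ w N _ _ _ _ h hh hbh
  let _ := pch V W M N
  have hmp : IsManifold 𝓘(ℝ, V × W) ∞ (M × N) := pman
  obtain ⟨h1, h2, h3, h4⟩ := prod_bad v w hT hg hh hb hbh hd
  exact ⟨fun t => tp (g t) (h t), fun t => isProd_tp _ _,
    ⟨h1, h2, h4, h3, h3.ricciUnbounded (pb v w) hT h1 h2⟩⟩

end Vale.Agent.P244.H426
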