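import Vale.Agent.P244.H426.Ric
import Vale.Agent.P244.Bd3.B12
import Vale.Agent.P244.Bd3.B17

/-! # P244 / H426 / Base : the flow on `S^21 × S^20` -/

open scoped Manifold ContDiff RealInnerProductSpace Topology
open Set Metric Module

namespace Vale.Agent.P244.H426

open Vale.Agent.P244.Flow

attribute [local instance] pch

/-- a degenerating component gives a degenerating vector -/
theorem Degenerates.of_degen {V : Type} [NormedAddCommGroup V] [NormedSpace ℝ V] {n : ℕ}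
    (v : Basis (Fin n) ℝ V) {M : Type} [TopologicalSpace M] [ChartedSpace V M]
    [IsManifold 𝓘(ℝ, V) ∞ M] {g : ℝ → Tensor V M} {T : ℝ}
    (h : Vale.Agent.P244.GeoP.Degen v g T) : Degenerates g T := by
  obtain ⟨e, he, y, hy, i, h⟩ := h
  refine ⟨e.symm y, dsym e y (v i), ?_, fun δ hδ => ?_⟩
  · intro h0
    have h1 : dsym e y (v i) = dsym e y 0 := Eq.trans h0 (map_zero _).symm
    exact v.ne_zero i (dsym_injective he hy h1)
  · obtain ⟨t, ht, hlt⟩ := h δ hδ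
    exact ⟨t, ht, hlt⟩

/-- The model space of `S^21 × S^20`. -/
abbrev V1 : Type := EuclideanSpace ℝ (Fin 21) × EuclideanSpace ℝ (Fin 20)

/-- The closed manifold `S^21 × S^20`. -/
abbrev M1 : Type := Metric.sphere (0 : EuclideanSpace ℝ (Fin 22)) 1 ×
  Metric.sphere (0 : EuclideanSpace ℝ (Fin 21)) 1

/-- The standard basis of the model space of `S^21 × S^20`. -/
noncomputable def v1 : Basis (Fin 41) ℝ V1 :=
  pb (EuclideanSpace.basisFun (Fin 21) ℝ).toBasis (EuclideanSpace.basisFun (Fin 20) ℝ).toBasis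

theorem man1 : IsManifold 𝓘(ℝ, V1) ∞ M1 := GeoM.instIsManifold 21 20

theorem man0 : IsManifold 𝓘(ℝ, V0) ∞ M0 := man1

section

open Vale.Agent.P244.Geo (EE rho hh frame)
open Vale.Agent.P244.GeoM
open Vale.Agent.P244.ST
open Vale.Agent.P244.GeoP

attribute [local instance] factFin

theorem base1 : ∃ g : ℝ → Tensor V1 M1, IsRicciFlow v1 g 1 ∧
    (∃ C : ℝ, ∀ t ∈ Ico (0 : ℝ) 1, ∀ x, |scalarCurvature v1 (g t) x| ≤ C) ∧
    Degenerates g 1 := by
  obtain ⟨w, f, S, ⟨C, hC⟩, htip⟩ := ST.core20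
  obtain ⟨η, H⟩ := exists_flo one_pos (sm_Jt (p := 20)
    (S.smooth_w : Vale.Agent.P244.GeoM.Sm 1 w) (S.smooth_f : Vale.Agent.P244.GeoM.Sm 1 f))
  have hv : (v1 : Fin 41 → V1) = frame 21 20 := fbasis_eq 21 20
  have hm := man1
  refine ⟨fun t => tens 21 20 (AA w (Jt 20 w f) η t) (BB w (Jt 20 w f) η t) (CC f η t),
    ?_, ⟨C, ?_⟩, ?_⟩
  · rw [hv]; exact H.isRicciFlow S
  · intro t ht x
    rw [hv]
    have h1 := H.scalarCurvature_eq S ht x
    refine (congrArg (fun z : ℝ => |z| ≤ C) h1).mpr ?_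
    refine closure_bound (H.cont_scalP S ht) (fun h hh => ?_) _ (Flo.height_mem H S x)
    rw [H.scal_eq S ht hh]
    exact hC t ht _ (H.mem t ht h (Ioo_subset_Icc_self hh))
  · apply Degenerates.of_degen v1
    rw [hv]
    refine degen_tens (m := 21) (p := 20) (by norm_num) (fun t => AA w (Jt 20 w f) η t)
      (fun t => BB w (Jt 20 w f) η t) (fun t => CC f η t) ?_
    intro δ hδ
    obtain ⟨t, ht, hlt⟩ := htip (Real.log δ / 2)
    refine ⟨t, ht, ?_⟩
    rw [CC, H.eta_one S ht, ← Real.lt_log_iff_exp_lt hδ]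
    linarith only [hlt]

end

theorem base : ∃ g : ℝ → Tensor V0 M0, IsRicciFlow v0 g 1 ∧ BoundedScalar v0 g 1 ∧
    Degenerates g 1 := base1

/-- For every `T > 0`. -/
theorem base_T {T : ℝ} (hT : 0 < T) : ∃ g : ℝ → Tensor V0 M0, IsRicciFlow v0 g T ∧
    BoundedScalar v0 g T ∧ Degenerates g T := by
  obtain ⟨g, hg, ⟨C, hC⟩, hd⟩ := base
  have h1 := flow_csf (v0 : Fin 41 → V0) hT hg
  have h2 := hd.csf hT
  rw [mul_one] at h1 h2
  refine ⟨csf T g, h1, ⟨T⁻¹ * C, fun t ht x => ?_⟩, h2⟩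
  have ht' : t / T ∈ Ico (0 : ℝ) 1 := ⟨div_nonneg ht.1 hT.le, by rw [div_lt_one hT]; exact ht.2⟩
  show |scalarCurvature v0 (csm T (g (t / T))) x| ≤ _
  rw [scal_csm _ hT.ne', abs_mul, abs_of_pos (inv_pos.2 hT)]
  exact mul_le_mul_of_nonneg_left (hC _ ht' x) (inv_pos.2 hT).le

/-- Every dimension `n ≥ 41` and every maximal time. -/
theorem every_dim {n : ℕ} (hn : 41 ≤ n) {T : ℝ} (hT : 0 < T) : ExistsSingular n T := by
  obtain ⟨k, rfl⟩ := Nat.exists_eq_add_of_le hn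
  obtain ⟨V, i1, i2, v, M, i3, i4, i5, i6, i7, i8, g, S, hS, hg, ⟨C, hC⟩, hd⟩ :=
    GeoP.bad_add GeoP.bad41 k
  have hd' := Degenerates.of_degen v hd
  have hc : 0 < T / S := div_pos hT hS
  have e : T / S * S = T := div_mul_cancel₀ _ hS.ne'
  have h1 := flow_csf v hc hg
  have h2 := hd'.csf hc
  rw [e] at h1 h2
  have h3 : BoundedScalar v (csf (T / S) g) T := by
    refine ⟨(T / S)⁻¹ * C, fun t ht x => ?_⟩
    have ht' : t / (T / S) ∈ Ico (0 : ℝ) S :=
      ⟨div_nonneg ht.1 hc.le, by rw [div_lt_iff₀ hc, mul_comm, e]; exact ht.2⟩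
    show |scalarCurvature v (csm (T / S) (g (t / (T / S)))) x| ≤ _
    rw [scal_csm _ hc.ne', abs_mul, abs_of_pos (inv_pos.2 hc)]
    exact mul_le_mul_of_nonneg_left (hC _ ht' x) (inv_pos.2 hc).le
  exact ⟨V, i1, i2, v, M, i3, i4, i5, i7, i6, i8, csf (T / S) g,
    ⟨h1, h3, h2.not_extends v hT, h2, h2.ricciUnbounded v hT h1 h3⟩⟩

end Vale.Agent.P244.H426
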