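import Vale.Agent.P244.FlowDefs

/-! # P244 / H426 / Block : the Ricci tensor of a product metric in coordinates -/

open scoped Topology
open Set Module Filter

set_option linter.unusedSectionVars false
set_option linter.unusedSimpArgs false

namespace Vale.Agent.P244.H426

open Vale.Agent.P244.Flow

/-- block diagonal matrix -/
def blk {m p : ℕ} (A : Matrix (Fin m) (Fin m) ℝ) (B : Matrix (Fin p) (Fin p) ℝ) :
    Matrix (Fin (m + p)) (Fin (m + p)) ℝ :=
  fun I J => Fin.addCases (fun i => Fin.addCases (fun j => A i j) (fun _ => 0) J)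
    (fun a => Fin.addCases (fun _ => 0) (fun b => B a b) J) I

section blocks

variable {m p : ℕ} (A : Matrix (Fin m) (Fin m) ℝ) (B : Matrix (Fin p) (Fin p) ℝ)

@[simp] theorem blk_ll (i j : Fin m) : blk A B (Fin.castAdd p i) (Fin.castAdd p j) = A i j := by
  simp [blk]

@[simp] theorem blk_lr (i : Fin m) (b : Fin p) :
    blk A B (Fin.castAdd p i) (Fin.natAdd m b) = 0 := by
  simp [blk]

@[simp] theorem blk_rl (a : Fin p) (j : Fin m) :
    blk A B (Fin.natAdd m a) (Fin.castAdd p j) = 0 := by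
  simp [blk]

@[simp] theorem blk_rr (a b : Fin p) : blk A B (Fin.natAdd m a) (Fin.natAdd m b) = B a b := by
  simp [blk]

theorem blk_inv (hA : IsUnit A.det) (hB : IsUnit B.det) : (blk A B)⁻¹ = blk A⁻¹ B⁻¹ := by
  apply Matrix.inv_eq_right_inv
  ext I J
  rw [Matrix.mul_apply, Fin.sum_univ_add]
  refine Fin.addCases (fun i => ?_) (fun i => ?_) I <;>
  refine Fin.addCases (fun j => ?_) (fun j => ?_) J
  · simp only [blk_ll, blk_lr, blk_rl, zero_mul, Finset.sum_const_zero, add_zero]
    rw [← Matrix.mul_apply, Matrix.mul_nonsing_inv A hA, Matrix.one_apply, Matrix.one_apply]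
    simp
  · simp only [blk_ll, blk_lr, blk_rr, mul_zero, zero_mul, Finset.sum_const_zero, add_zero]
    rw [Matrix.one_apply_ne]
    intro h
    have := congrArg Fin.val h
    simp at this
    omega
  · simp only [blk_ll, blk_rl, blk_rr, mul_zero, zero_mul, Finset.sum_const_zero, add_zero]
    rw [Matrix.one_apply_ne]
    intro h
    have := congrArg Fin.val h
    simp at this
    omega
  · simp only [blk_rl, blk_lr, blk_rr, zero_mul, Finset.sum_const_zero, zero_add]
    rw [← Matrix.mul_apply, Matrix.mul_nonsing_inv B hB, Matrix.one_apply, Matrix.one_apply]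
    simp

end blocks

variable {V W : Type*} [NormedAddCommGroup V] [NormedSpace ℝ V] [NormedAddCommGroup W]
  [NormedSpace ℝ W] {m p : ℕ}

/-- the basis of the product of two vector spaces -/
noncomputable def fr (v : Fin m → V) (w : Fin p → W) : Fin (m + p) → V × W :=
  Fin.addCases (fun i => (v i, 0)) (fun a => (0, w a))

@[simp] theorem fr_l (v : Fin m → V) (w : Fin p → W) (i : Fin m) :
    fr v w (Fin.castAdd p i) = (v i, 0) := by simp [fr]

@[simp] theorem fr_r (v : Fin m → V) (w : Fin p → W) (a : Fin p) :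
    fr v w (Fin.natAdd m a) = (0, w a) := by simp [fr]

theorem fderiv_comp_fst (f : V → ℝ) (y : V × W) : fderiv ℝ (fun z : V × W => f z.1) y =
    (fderiv ℝ f y.1).comp (ContinuousLinearMap.fst ℝ V W) := by
  by_cases h : DifferentiableAt ℝ f y.1
  · exact (h.hasFDerivAt.comp y hasFDerivAt_fst).fderiv
  · have h2 : ¬ DifferentiableAt ℝ (fun z : V × W => f z.1) y := by
      intro h'
      apply h
      have h3 : DifferentiableAt ℝ (fun z : V => ((z, y.2) : V × W)) y.1 := by fun_prop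
      exact DifferentiableAt.comp (g := fun z : V × W => f z.1) y.1 h' h3
    rw [fderiv_zero_of_not_differentiableAt h, fderiv_zero_of_not_differentiableAt h2]
    rfl

theorem fderiv_comp_snd (f : W → ℝ) (y : V × W) : fderiv ℝ (fun z : V × W => f z.2) y =
    (fderiv ℝ f y.2).comp (ContinuousLinearMap.snd ℝ V W) := by
  by_cases h : DifferentiableAt ℝ f y.2
  · exact (h.hasFDerivAt.comp y hasFDerivAt_snd).fderiv
  · have h2 : ¬ DifferentiableAt ℝ (fun z : V × W => f z.2) y := by
      intro h'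
      apply h
      have h3 : DifferentiableAt ℝ (fun z : W => ((y.1, z) : V × W)) y.2 := by fun_prop
      exact DifferentiableAt.comp (g := fun z : V × W => f z.2) y.2 h' h3
    rw [fderiv_zero_of_not_differentiableAt h, fderiv_zero_of_not_differentiableAt h2]
    rfl

section pdl

variable (v : Fin m → V) (w : Fin p → W)

theorem pd_congr_ev {n : ℕ} {u : Fin n → V} {i : Fin n} {f f' : V → ℝ} {y : V}
    (h : f =ᶠ[𝓝 y] f') : pd u i f y = pd u i f' y := by
  unfold pd; rw [h.fderiv_eq]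

theorem pd_const {n : ℕ} (u : Fin n → V) (i : Fin n) (c : ℝ) (y : V) :
    pd u i (fun _ => c) y = 0 := by
  unfold pd; simp

theorem pd_l_fst (i : Fin m) (f : V → ℝ) (y : V × W) :
    pd (fr v w) (Fin.castAdd p i) (fun z => f z.1) y = pd v i f y.1 := by
  unfold pd; rw [fderiv_comp_fst]; simp

theorem pd_r_fst (a : Fin p) (f : V → ℝ) (y : V × W) :
    pd (fr v w) (Fin.natAdd m a) (fun z => f z.1) y = 0 := by
  unfold pd; rw [fderiv_comp_fst]; simp

theorem pd_l_snd (i : Fin m) (f : W → ℝ) (y : V × W) :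
    pd (fr v w) (Fin.castAdd p i) (fun z => f z.2) y = 0 := by
  unfold pd; rw [fderiv_comp_snd]; simp

theorem pd_r_snd (a : Fin p) (f : W → ℝ) (y : V × W) :
    pd (fr v w) (Fin.natAdd m a) (fun z => f z.2) y = pd w a f y.2 := by
  unfold pd; rw [fderiv_comp_snd]; simp

variable (G : V → Matrix (Fin m) (Fin m) ℝ) (H : W → Matrix (Fin p) (Fin p) ℝ)

theorem pdl_G (i a b : Fin m) (y : V × W) :
    pd (fr v w) (Fin.castAdd p i) (fun z => G z.1 a b) y = pd v i (fun z => G z a b) y.1 :=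
  pd_l_fst v w i (fun z => G z a b) y

theorem pdr_G (i : Fin p) (a b : Fin m) (y : V × W) :
    pd (fr v w) (Fin.natAdd m i) (fun z => G z.1 a b) y = 0 :=
  pd_r_fst v w i (fun z => G z a b) y

theorem pdl_H (i : Fin m) (a b : Fin p) (y : V × W) :
    pd (fr v w) (Fin.castAdd p i) (fun z => H z.2 a b) y = 0 :=
  pd_l_snd v w i (fun z => H z a b) y

theorem pdr_H (i a b : Fin p) (y : V × W) :
    pd (fr v w) (Fin.natAdd m i) (fun z => H z.2 a b) y = pd w i (fun z => H z a b) y.2 :=
  pd_r_snd v w i (fun z => H z a b) y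

theorem pdl_cG (l k i j : Fin m) (y : V × W) :
    pd (fr v w) (Fin.castAdd p l) (fun z => christoffel v G k i j z.1) y =
      pd v l (christoffel v G k i j) y.1 :=
  pd_l_fst v w l (christoffel v G k i j) y

theorem pdr_cG (l : Fin p) (k i j : Fin m) (y : V × W) :
    pd (fr v w) (Fin.natAdd m l) (fun z => christoffel v G k i j z.1) y = 0 :=
  pd_r_fst v w l (christoffel v G k i j) y

theorem pdl_cH (l : Fin m) (k i j : Fin p) (y : V × W) :
    pd (fr v w) (Fin.castAdd p l) (fun z => christoffel w H k i j z.2) y = 0 :=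
  pd_l_snd v w l (christoffel w H k i j) y

theorem pdr_cH (l k i j : Fin p) (y : V × W) :
    pd (fr v w) (Fin.natAdd m l) (fun z => christoffel w H k i j z.2) y =
      pd w l (christoffel w H k i j) y.2 :=
  pd_r_snd v w l (christoffel w H k i j) y

end pdl

/-- the product metric in coordinates -/
def pm (G : V → Matrix (Fin m) (Fin m) ℝ) (H : W → Matrix (Fin p) (Fin p) ℝ) (y : V × W) :
    Matrix (Fin (m + p)) (Fin (m + p)) ℝ := blk (G y.1) (H y.2)

section chr

variable (v : Fin m → V) (w : Fin p → W) {G : V → Matrix (Fin m) (Fin m) ℝ}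
  {H : W → Matrix (Fin p) (Fin p) ℝ}

theorem chr_lll {y : V × W} (hG : IsUnit (G y.1).det) (hH : IsUnit (H y.2).det)
    (k i j : Fin m) :
    christoffel (fr v w) (pm G H) (Fin.castAdd p k) (Fin.castAdd p i) (Fin.castAdd p j) y =
      christoffel v G k i j y.1 := by
  unfold christoffel
  rw [pm, blk_inv _ _ hG hH, Fin.sum_univ_add]
  simp only [pm, blk_ll, blk_lr, pdl_G, zero_mul, Finset.sum_const_zero, add_zero]

theorem chr_rrr {y : V × W} (hG : IsUnit (G y.1).det) (hH : IsUnit (H y.2).det)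
    (k i j : Fin p) :
    christoffel (fr v w) (pm G H) (Fin.natAdd m k) (Fin.natAdd m i) (Fin.natAdd m j) y =
      christoffel w H k i j y.2 := by
  unfold christoffel
  rw [pm, blk_inv _ _ hG hH, Fin.sum_univ_add]
  simp only [pm, blk_rr, blk_rl, pdr_H, zero_mul, Finset.sum_const_zero, zero_add]

theorem chr_rll {y : V × W} (hG : IsUnit (G y.1).det) (hH : IsUnit (H y.2).det)
    (k : Fin p) (i j : Fin m) :
    christoffel (fr v w) (pm G H) (Fin.natAdd m k) (Fin.castAdd p i) (Fin.castAdd p j) y = 0 := by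
  unfold christoffel
  rw [pm, blk_inv _ _ hG hH, Fin.sum_univ_add]
  simp only [pm, blk_ll, blk_lr, blk_rl, blk_rr, pd_const, pdl_G, pdr_G, pdl_H, pdr_H, zero_mul,
    Finset.sum_const_zero, add_zero, sub_zero, mul_zero]

theorem chr_llr {y : V × W} (hG : IsUnit (G y.1).det) (hH : IsUnit (H y.2).det)
    (k : Fin m) (i : Fin m) (j : Fin p) :
    christoffel (fr v w) (pm G H) (Fin.castAdd p k) (Fin.castAdd p i) (Fin.natAdd m j) y = 0 := by
  unfold christoffel
  rw [pm, blk_inv _ _ hG hH, Fin.sum_univ_add]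
  simp only [pm, blk_ll, blk_lr, blk_rl, blk_rr, pd_const, pdl_G, pdr_G, pdl_H, pdr_H, zero_mul,
    Finset.sum_const_zero, add_zero, sub_zero, mul_zero]

theorem chr_lrl {y : V × W} (hG : IsUnit (G y.1).det) (hH : IsUnit (H y.2).det)
    (k : Fin m) (i : Fin p) (j : Fin m) :
    christoffel (fr v w) (pm G H) (Fin.castAdd p k) (Fin.natAdd m i) (Fin.castAdd p j) y = 0 := by
  unfold christoffel
  rw [pm, blk_inv _ _ hG hH, Fin.sum_univ_add]
  simp only [pm, blk_ll, blk_lr, blk_rl, blk_rr, pd_const, pdl_G, pdr_G, pdl_H, pdr_H, zero_mul,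
    Finset.sum_const_zero, add_zero, sub_zero, mul_zero]

theorem chr_lrr {y : V × W} (hG : IsUnit (G y.1).det) (hH : IsUnit (H y.2).det)
    (k : Fin m) (i j : Fin p) :
    christoffel (fr v w) (pm G H) (Fin.castAdd p k) (Fin.natAdd m i) (Fin.natAdd m j) y = 0 := by
  unfold christoffel
  rw [pm, blk_inv _ _ hG hH, Fin.sum_univ_add]
  simp only [pm, blk_ll, blk_lr, blk_rl, blk_rr, pd_const, pdl_G, pdr_G, pdl_H, pdr_H, zero_mul,
    Finset.sum_const_zero, add_zero, sub_zero, mul_zero]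

theorem chr_rlr {y : V × W} (hG : IsUnit (G y.1).det) (hH : IsUnit (H y.2).det)
    (k : Fin p) (i : Fin m) (j : Fin p) :
    christoffel (fr v w) (pm G H) (Fin.natAdd m k) (Fin.castAdd p i) (Fin.natAdd m j) y = 0 := by
  unfold christoffel
  rw [pm, blk_inv _ _ hG hH, Fin.sum_univ_add]
  simp only [pm, blk_ll, blk_lr, blk_rl, blk_rr, pd_const, pdl_G, pdr_G, pdl_H, pdr_H, zero_mul,
    Finset.sum_const_zero, add_zero, sub_zero, mul_zero]

theorem chr_rrl {y : V × W} (hG : IsUnit (G y.1).det) (hH : IsUnit (H y.2).det)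
    (k : Fin p) (i : Fin p) (j : Fin m) :
    christoffel (fr v w) (pm G H) (Fin.natAdd m k) (Fin.natAdd m i) (Fin.castAdd p j) y = 0 := by
  unfold christoffel
  rw [pm, blk_inv _ _ hG hH, Fin.sum_univ_add]
  simp only [pm, blk_ll, blk_lr, blk_rl, blk_rr, pd_const, pdl_G, pdr_G, pdl_H, pdr_H, zero_mul,
    Finset.sum_const_zero, add_zero, sub_zero, mul_zero]

/-- The Ricci tensor of a product metric. -/
theorem ricci_pm {U : Set V} {U' : Set W} (hU : IsOpen U) (hU' : IsOpen U')
    (hG : ∀ y ∈ U, IsUnit (G y).det) (hH : ∀ y ∈ U', IsUnit (H y).det)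
    {y : V × W} (hy : y.1 ∈ U) (hy' : y.2 ∈ U') (I J : Fin (m + p)) :
    ricci (fr v w) (pm G H) I J y =
      blk (Matrix.of fun i j => ricci v G i j y.1) (Matrix.of fun a b => ricci w H a b y.2)
        I J := by
  have gy := hG _ hy
  have hyy := hH _ hy'
  have hev : ∀ᶠ z in 𝓝 y, z.1 ∈ U ∧ z.2 ∈ U' := by
    have : U ×ˢ U' ∈ 𝓝 y := (hU.prod hU').mem_nhds ⟨hy, hy'⟩
    filter_upwards [this] with z hz using hz
  -- derivatives of the Christoffel symbols
  have e_lll : ∀ k i j, christoffel (fr v w) (pm G H) (Fin.castAdd p k) (Fin.castAdd p i)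
      (Fin.castAdd p j) =ᶠ[𝓝 y] fun z => christoffel v G k i j z.1 := fun k i j => by
    filter_upwards [hev] with z hz using chr_lll v w (hG _ hz.1) (hH _ hz.2) k i j
  have e_rrr : ∀ k i j, christoffel (fr v w) (pm G H) (Fin.natAdd m k) (Fin.natAdd m i)
      (Fin.natAdd m j) =ᶠ[𝓝 y] fun z => christoffel w H k i j z.2 := fun k i j => by
    filter_upwards [hev] with z hz using chr_rrr v w (hG _ hz.1) (hH _ hz.2) k i j
  have e_rll : ∀ k i j, christoffel (fr v w) (pm G H) (Fin.natAdd m k) (Fin.castAdd p i)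
      (Fin.castAdd p j) =ᶠ[𝓝 y] fun _ => 0 := fun k i j => by
    filter_upwards [hev] with z hz using chr_rll v w (hG _ hz.1) (hH _ hz.2) k i j
  have e_llr : ∀ k i j, christoffel (fr v w) (pm G H) (Fin.castAdd p k) (Fin.castAdd p i)
      (Fin.natAdd m j) =ᶠ[𝓝 y] fun _ => 0 := fun k i j => by
    filter_upwards [hev] with z hz using chr_llr v w (hG _ hz.1) (hH _ hz.2) k i j
  have e_lrl : ∀ k i j, christoffel (fr v w) (pm G H) (Fin.castAdd p k) (Fin.natAdd m i)
      (Fin.castAdd p j) =ᶠ[𝓝 y] fun _ => 0 := fun k i j => by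
    filter_upwards [hev] with z hz using chr_lrl v w (hG _ hz.1) (hH _ hz.2) k i j
  have e_lrr : ∀ k i j, christoffel (fr v w) (pm G H) (Fin.castAdd p k) (Fin.natAdd m i)
      (Fin.natAdd m j) =ᶠ[𝓝 y] fun _ => 0 := fun k i j => by
    filter_upwards [hev] with z hz using chr_lrr v w (hG _ hz.1) (hH _ hz.2) k i j
  have e_rlr : ∀ k i j, christoffel (fr v w) (pm G H) (Fin.natAdd m k) (Fin.castAdd p i)
      (Fin.natAdd m j) =ᶠ[𝓝 y] fun _ => 0 := fun k i j => by
    filter_upwards [hev] with z hz using chr_rlr v w (hG _ hz.1) (hH _ hz.2) k i j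
  have e_rrl : ∀ k i j, christoffel (fr v w) (pm G H) (Fin.natAdd m k) (Fin.natAdd m i)
      (Fin.castAdd p j) =ᶠ[𝓝 y] fun _ => 0 := fun k i j => by
    filter_upwards [hev] with z hz using chr_rrl v w (hG _ hz.1) (hH _ hz.2) k i j
  refine Fin.addCases (fun i => ?_) (fun i => ?_) I <;>
  refine Fin.addCases (fun j => ?_) (fun j => ?_) J <;>
  unfold ricci <;>
  simp only [Fin.sum_univ_add, pd_congr_ev (e_lll _ _ _), pd_congr_ev (e_rrr _ _ _),
    pd_congr_ev (e_rll _ _ _), pd_congr_ev (e_llr _ _ _), pd_congr_ev (e_lrl _ _ _),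
    pd_congr_ev (e_lrr _ _ _), pd_congr_ev (e_rlr _ _ _), pd_congr_ev (e_rrl _ _ _),
    chr_lll v w gy hyy, chr_rrr v w gy hyy, chr_rll v w gy hyy, chr_llr v w gy hyy,
    chr_lrl v w gy hyy, chr_lrr v w gy hyy, chr_rlr v w gy hyy, chr_rrl v w gy hyy,
    pd_const, pdl_cG, pdr_cG, pdl_cH, pdr_cH, blk_ll, blk_lr, blk_rl, blk_rr,
    Matrix.of_apply, zero_mul, mul_zero, Finset.sum_const_zero, add_zero, zero_add, sub_zero,
    sub_self]

/-- The scalar curvature of a product metric. -/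
theorem scal_pm {U : Set V} {U' : Set W} (hU : IsOpen U) (hU' : IsOpen U')
    (hG : ∀ y ∈ U, IsUnit (G y).det) (hH : ∀ y ∈ U', IsUnit (H y).det)
    {y : V × W} (hy : y.1 ∈ U) (hy' : y.2 ∈ U') :
    ∑ I, ∑ J, (pm G H y)⁻¹ I J * ricci (fr v w) (pm G H) I J y =
      (∑ i, ∑ j, (G y.1)⁻¹ i j * ricci v G i j y.1) +
        ∑ i, ∑ j, (H y.2)⁻¹ i j * ricci w H i j y.2 := by
  simp only [ricci_pm v w hU hU' hG hH hy hy', pm, blk_inv _ _ (hG _ hy) (hH _ hy'),
    Fin.sum_univ_add, blk_ll, blk_lr, blk_rl, blk_rr, Matrix.of_apply, mul_zero, zero_mul,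
    Finset.sum_const_zero, add_zero, zero_add]

end chr

end Vale.Agent.P244.H426
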