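import Vale.Agent.P244.H426.Scale

/-! # P244 / H426 / Inst : degenerating products, Einstein flows -/

open scoped Manifold ContDiff Topology
open Set Module Filter

set_option linter.unusedSectionVars false

namespace Vale.Agent.P244.H426

open Vale.Agent.P244.Flow

variable {V W : Type*} [NormedAddCommGroup V] [NormedSpace ℝ V] [NormedAddCommGroup W]
  [NormedSpace ℝ W] {m p : ℕ}
  {M N : Type*} [TopologicalSpace M] [ChartedSpace V M] [TopologicalSpace N] [ChartedSpace W N]

attribute [local instance] pch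

theorem Degenerates.prod {g : ℝ → Tensor V M} {T : ℝ} (hd : Degenerates g T)
    (h : ℝ → Tensor W N) (y : N) : Degenerates (fun t => tp (g t) (h t)) T := by
  obtain ⟨x, u, hu, hd⟩ := hd
  have key : ∃ U : V × W, U ≠ 0 ∧ ∀ t, gAt (tp (g t) (h t)) (x, y) U U = val (g t) x u u := by
    refine ⟨((u : V), (0 : W)), ?_, fun t => ?_⟩
    · intro h0
      exact hu (congrArg Prod.fst h0)
    · rw [gAt_tp]
      have h1 : gAt (h t) y (0 : W) (0 : W) = 0 := by simp
      have h2 : gAt (g t) x (u : V) (u : V) = val (g t) x u u := rfl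
      show gAt (g t) x (u : V) (u : V) + gAt (h t) y (0 : W) (0 : W) = _
      rw [h1, h2, add_zero]
  obtain ⟨U, hU, hval⟩ := key
  refine ⟨(x, y), U, hU, fun δ hδ => ?_⟩
  obtain ⟨t, ht, hlt⟩ := hd δ hδ
  refine ⟨t, ht, ?_⟩
  have h3 := hval t
  show gAt (tp (g t) (h t)) (x, y) U U < δ
  rw [h3]
  exact hlt

/-- **Products.** If `g` is a degenerating Ricci flow with bounded scalar curvature, then so is its
product with every Ricci flow `h` with bounded scalar curvature. -/
theorem prod_bad [IsManifold 𝓘(ℝ, V) ∞ M] [IsManifold 𝓘(ℝ, W) ∞ N] (v : Basis (Fin m) ℝ V)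
    (w : Basis (Fin p) ℝ W) [Nonempty N] {g : ℝ → Tensor V M} {h : ℝ → Tensor W N} {T : ℝ}
    (hT : 0 < T) (hg : IsRicciFlow v g T) (hh : IsRicciFlow w h T)
    (bg : ∃ C : ℝ, ∀ t ∈ Ico 0 T, ∀ x, |scalarCurvature v (g t) x| ≤ C)
    (bh : ∃ C : ℝ, ∀ t ∈ Ico 0 T, ∀ x, |scalarCurvature w (h t) x| ≤ C)
    (hd : Degenerates g T) :
    IsRicciFlow (pb v w) (fun t => tp (g t) (h t)) T ∧
    (∃ C : ℝ, ∀ t ∈ Ico 0 T, ∀ x, |scalarCurvature (pb v w) (tp (g t) (h t)) x| ≤ C) ∧
    Degenerates (fun t => tp (g t) (h t)) T ∧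
    ¬ ExtendsPast (pb v w) (fun t => tp (g t) (h t)) T := by
  have hm : IsManifold 𝓘(ℝ, V × W) ∞ (M × N) := pman
  have hdp := hd.prod h (Classical.arbitrary N)
  refine ⟨?_, ?_, hdp, hdp.not_extends (pb v w) hT⟩
  · rw [pb_eq]; exact flow_prod v w hg hh
  · obtain ⟨C, hC⟩ := bg
    obtain ⟨D, hD⟩ := bh
    refine ⟨C + D, fun t ht x => ?_⟩
    rw [pb_eq, scal_prod v w (hg.pos t ht) (hh.pos t ht)]
    exact (abs_add_le _ _).trans (add_le_add (hC t ht _) (hD t ht _))

/-- `h` is an Einstein metric on `N` with `Ric(h) = lam h`. -/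
structure IsEinstein {W N : Type*} [NormedAddCommGroup W] [NormedSpace ℝ W] {k : ℕ}
    [TopologicalSpace N] [ChartedSpace W N] (w : Fin k → W) (h : Tensor W N) (lam : ℝ) :
    Prop where
  symm : ∀ x a b, val h x a b = val h x b a
  pos : ∀ x a, a ≠ 0 → 0 < val h x a a
  smooth : ∀ e ∈ atlas W N, ∀ i j, ContDiffOn ℝ ∞ (fun y => comp w h e y i j) e.target
  ric : ∀ e ∈ atlas W N, ∀ y ∈ e.target, ∀ i j,
    ricci w (comp w h e) i j y = lam * comp w h e y i j

/-- Einstein metrics give Ricci flows by scaling. -/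
theorem IsEinstein.flow {w : Fin p → W} {H : Tensor W N} {lam : ℝ} (h : IsEinstein w H lam)
    {τ : ℝ} (hτ : ∀ t ∈ Ico 0 τ, 0 < 1 - 2 * lam * t) :
    IsRicciFlow w (fun t => csm (1 - 2 * lam * t) H) τ where
  symm t ht x a b := by
    simp only [val_csm, h.symm x a b]
  pos t ht x a ha := by
    simp only [val_csm]
    exact mul_pos (hτ t ht) (h.pos x a ha)
  smooth e he i j := by
    have h1 := h.smooth e he i j
    have h2 : ContDiffOn ℝ ∞ (fun z : ℝ × W => comp w H e z.2 i j) (Ico 0 τ ×ˢ e.target) :=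
      h1.comp contDiffOn_snd (fun z hz => hz.2)
    have h3 : ContDiffOn ℝ ∞ (fun z : ℝ × W => 1 - 2 * lam * z.1) (Ico 0 τ ×ˢ e.target) := by
      fun_prop
    exact h3.mul h2
  flow e he y hy i j t ht := by
    have h1 : ricci w (comp w (csm (1 - 2 * lam * t) H) e) i j y = lam * comp w H e y i j :=
      (ricci_csm w (hτ t ht).ne' (comp w H e) i j y).trans (h.ric e he y hy i j)
    rw [h1]
    have h2 : HasDerivWithinAt (fun s : ℝ => 1 - 2 * lam * s) (-(2 * lam)) (Ico 0 τ) t := by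
      have := ((hasDerivWithinAt_id t (Ico 0 τ)).const_mul (2 * lam)).const_sub 1
      simpa using this
    have h3 := h2.mul_const (comp w H e y i j)
    refine h3.congr_deriv ?_
    ring

theorem IsEinstein.scal [IsManifold 𝓘(ℝ, W) ∞ N] (w : Basis (Fin p) ℝ W) {H : Tensor W N}
    {lam : ℝ} (h : IsEinstein w H lam) (x : N) : scalarCurvature w H x = lam * p := by
  unfold scalarCurvature
  have hu := isUnit_comp w H h.pos (chart_mem_atlas W x) (mem_chart_target W x)
  set A := comp w H (chartAt W x) (chartAt W x x) with hA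
  have h1 : ∀ i j, ricci w (comp w H (chartAt W x)) i j (chartAt W x x) = lam * A j i := by
    intro i j
    rw [h.ric _ (chart_mem_atlas W x) _ (mem_chart_target W x)]
    congr 1
    exact h.symm _ _ _
  simp only [h1]
  have h2 : ∀ i, ∑ j, A⁻¹ i j * (lam * A j i) = lam := by
    intro i
    have h3 : ∑ j, A⁻¹ i j * (lam * A j i) = lam * (A⁻¹ * A) i i := by
      rw [Matrix.mul_apply, Finset.mul_sum]
      refine Finset.sum_congr rfl fun j _ => by ring
    rw [h3, Matrix.nonsing_inv_mul A hu, Matrix.one_apply_eq, mul_one]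
  simp only [h2, Finset.sum_const, Finset.card_univ, Fintype.card_fin, nsmul_eq_mul]
  ring

theorem IsEinstein.bounded [IsManifold 𝓘(ℝ, W) ∞ N] (w : Basis (Fin p) ℝ W) {H : Tensor W N}
    {lam : ℝ} (h : IsEinstein w H lam) {τ : ℝ} (hτ : 2 * lam * τ < 1) :
    IsRicciFlow w (fun t => csm (1 - 2 * lam * t) H) τ ∧
    ∃ C : ℝ, ∀ t ∈ Ico 0 τ, ∀ x, |scalarCurvature w (csm (1 - 2 * lam * t) H) x| ≤ C := by
  have hb : ∀ t ∈ Ico 0 τ, min 1 (1 - 2 * lam * τ) ≤ 1 - 2 * lam * t := by
    intro t ht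
    rcases le_total 0 lam with hl | hl
    · refine (min_le_right _ _).trans ?_
      have := mul_le_mul_of_nonneg_left ht.2.le hl
      linarith
    · refine (min_le_left _ _).trans ?_
      have := mul_nonpos_of_nonpos_of_nonneg hl ht.1
      linarith
  have hm : 0 < min 1 (1 - 2 * lam * τ) := lt_min one_pos (by linarith)
  refine ⟨h.flow fun t ht => hm.trans_le (hb t ht), (min 1 (1 - 2 * lam * τ))⁻¹ * |lam * p|,
    fun t ht x => ?_⟩
  have hp := hm.trans_le (hb t ht)
  rw [scal_csm w hp.ne', h.scal w, abs_mul]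
  refine mul_le_mul_of_nonneg_right ?_ (abs_nonneg _)
  rw [abs_of_pos (inv_pos.2 hp)]
  exact inv_anti₀ hm (hb t ht)

end Vale.Agent.P244.H426
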