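import Vale.Agent.P244.H426.Block
import Vale.Agent.P244.H426.Defs

/-! # P244 / H426 / Prod : products of Ricci flows -/

open scoped Manifold ContDiff Topology
open Set Module Filter

set_option linter.unusedSectionVars false

namespace Vale.Agent.P244.H426

open Vale.Agent.P244.Flow

variable {V W : Type*} [NormedAddCommGroup V] [NormedSpace ℝ V] [NormedAddCommGroup W]
  [NormedSpace ℝ W] {m p : ℕ}
  {M N : Type*} [TopologicalSpace M] [ChartedSpace V M] [TopologicalSpace N] [ChartedSpace W N]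

attribute [local instance] pch

theorem pman [IsManifold 𝓘(ℝ, V) ∞ M] [IsManifold 𝓘(ℝ, W) ∞ N] :
    IsManifold 𝓘(ℝ, V × W) ∞ (M × N) := by
  have h : IsManifold (𝓘(ℝ, V).prod 𝓘(ℝ, W)) ∞ (M × N) := IsManifold.prod _ _
  rw [← modelWithCornersSelf_prod] at h
  exact h

/-- The product metric `g + h` on `M × N`, as a tensor field. -/
noncomputable def tp (g : Tensor V M) (h : Tensor W N) : Tensor (V × W) (M × N) := fun x =>
  (show (V × W) →L[ℝ] (V × W) →L[ℝ] ℝ from
    (show V →L[ℝ] V →L[ℝ] ℝ from g x.1).bilinearComp (ContinuousLinearMap.fst ℝ V W)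
      (ContinuousLinearMap.fst ℝ V W) +
    (show W →L[ℝ] W →L[ℝ] ℝ from h x.2).bilinearComp (ContinuousLinearMap.snd ℝ V W)
      (ContinuousLinearMap.snd ℝ V W))

/-- value of a tensor, with the tangent space replaced by the model space -/
def gAt (g : Tensor V M) (x : M) : V →L[ℝ] V →L[ℝ] ℝ := g x

/-- derivative of the inverse chart -/
noncomputable def dsym (e1 : OpenPartialHomeomorph M V) (y : V) : V →L[ℝ] V :=
  mfderiv 𝓘(ℝ, V) 𝓘(ℝ, V) e1.symm y

theorem comp_eq_gAt {n : ℕ} (v : Fin n → V) (g : Tensor V M) (e1 : OpenPartialHomeomorph M V)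
    (y : V) (i j : Fin n) : comp v g e1 y i j =
      gAt g (e1.symm y) (dsym e1 y (v i)) (dsym e1 y (v j)) := rfl

theorem gAt_tp (g : Tensor V M) (h : Tensor W N) (x : M × N) (u w : V × W) :
    gAt (tp g h) x u w = gAt g x.1 u.1 w.1 + gAt h x.2 u.2 w.2 := rfl

theorem isProd_tp (g : Tensor V M) (h : Tensor W N) : IsProd (tp g h) g h :=
  fun _ _ _ _ _ _ => rfl

theorem mem_patlas {e : OpenPartialHomeomorph (M × N) (V × W)}
    (he : e ∈ atlas (V × W) (M × N)) : ∃ e1 ∈ atlas V M, ∃ e2 ∈ atlas W N,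
      e.target = e1.target ×ˢ e2.target ∧
      (∀ y : V × W, e.symm y = (e1.symm y.1, e2.symm y.2)) := by
  obtain ⟨e1, h1, e2, h2, rfl⟩ := he
  exact ⟨e1, h1, e2, h2, rfl, fun y => rfl⟩

theorem mdiff_symm [IsManifold 𝓘(ℝ, V) ∞ M] {e1 : OpenPartialHomeomorph M V}
    (h1 : e1 ∈ atlas V M) {y : V} (hy : y ∈ e1.target) :
    MDifferentiableAt 𝓘(ℝ, V) 𝓘(ℝ, V) e1.symm y := by
  have h2 : e1 ∈ IsManifold.maximalAtlas 𝓘(ℝ, V) ∞ M := IsManifold.subset_maximalAtlas h1
  have h3 := contMDiffOn_symm_of_mem_maximalAtlas h2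
  exact (h3.contMDiffAt (e1.open_target.mem_nhds hy)).mdifferentiableAt (by simp)

theorem dsym_prod [IsManifold 𝓘(ℝ, V) ∞ M] [IsManifold 𝓘(ℝ, W) ∞ N]
    {e1 : OpenPartialHomeomorph M V} (h1 : e1 ∈ atlas V M) {e2 : OpenPartialHomeomorph N W}
    (h2 : e2 ∈ atlas W N) {y : V × W} (hy : y.1 ∈ e1.target) (hy' : y.2 ∈ e2.target)
    {e : OpenPartialHomeomorph (M × N) (V × W)}
    (he : ∀ y : V × W, e.symm y = (e1.symm y.1, e2.symm y.2)) (u : V × W) :
    dsym e y u = (dsym e1 y.1 u.1, dsym e2 y.2 u.2) := by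
  have h2 := mfderiv_prodMap (p := y) (mdiff_symm h1 hy) (mdiff_symm h2 hy')
  have h3 : (e.symm : V × W → M × N) = Prod.map e1.symm e2.symm := by
    funext z; exact he z
  unfold dsym
  rw [h3]
  rw [← modelWithCornersSelf_prod, chartedSpaceSelf_prod] at h2
  have h4 := congrArg (fun L : (V × W) →L[ℝ] (V × W) => L u) h2
  exact h4

/-- components of the product metric in a product chart -/
theorem comp_tp [IsManifold 𝓘(ℝ, V) ∞ M] [IsManifold 𝓘(ℝ, W) ∞ N] (v : Fin m → V)
    (w : Fin p → W) {e1 : OpenPartialHomeomorph M V} (h1 : e1 ∈ atlas V M)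
    {e2 : OpenPartialHomeomorph N W} (h2 : e2 ∈ atlas W N) {y : V × W} (hy : y.1 ∈ e1.target)
    (hy' : y.2 ∈ e2.target) {e : OpenPartialHomeomorph (M × N) (V × W)}
    (he : ∀ y : V × W, e.symm y = (e1.symm y.1, e2.symm y.2)) (g : Tensor V M) (h : Tensor W N) :
    comp (fr v w) (tp g h) e y = blk (comp v g e1 y.1) (comp w h e2 y.2) := by
  ext I J
  have key : ∀ (x : M × N) (u u' : V × W), x = (e1.symm y.1, e2.symm y.2) →
      gAt (tp g h) x (dsym e y u) (dsym e y u') =
      gAt g (e1.symm y.1) (dsym e1 y.1 u.1) (dsym e1 y.1 u'.1) +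
        gAt h (e2.symm y.2) (dsym e2 y.2 u.2) (dsym e2 y.2 u'.2) := by
    rintro x u u' rfl
    rw [dsym_prod h1 h2 hy hy' he, dsym_prod h1 h2 hy hy' he, gAt_tp]
  rw [comp_eq_gAt, key _ _ _ (he y)]
  refine Fin.addCases (fun i => ?_) (fun i => ?_) I <;>
  refine Fin.addCases (fun j => ?_) (fun j => ?_) J
  · rw [blk_ll, comp_eq_gAt]; simp
  · rw [blk_lr]; simp
  · rw [blk_rl]; simp
  · rw [blk_rr, comp_eq_gAt]; simp

theorem comp_event [IsManifold 𝓘(ℝ, V) ∞ M] [IsManifold 𝓘(ℝ, W) ∞ N] (v : Fin m → V)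
    (w : Fin p → W) {e1 : OpenPartialHomeomorph M V} (h1 : e1 ∈ atlas V M)
    {e2 : OpenPartialHomeomorph N W} (h2 : e2 ∈ atlas W N) {y : V × W} (hy : y.1 ∈ e1.target)
    (hy' : y.2 ∈ e2.target) {e : OpenPartialHomeomorph (M × N) (V × W)}
    (he : ∀ y : V × W, e.symm y = (e1.symm y.1, e2.symm y.2)) (g : Tensor V M) (h : Tensor W N) :
    comp (fr v w) (tp g h) e =ᶠ[𝓝 y] pm (comp v g e1) (comp w h e2) := by
  have h3 : e1.target ×ˢ e2.target ∈ 𝓝 y :=
    (e1.open_target.prod e2.open_target).mem_nhds ⟨hy, hy'⟩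
  filter_upwards [h3] with z hz
  exact comp_tp v w h1 h2 hz.1 hz.2 he g h

theorem dsym_injective [IsManifold 𝓘(ℝ, V) ∞ M] {e : OpenPartialHomeomorph M V}
    (he : e ∈ atlas V M) {y : V} (hy : y ∈ e.target) : Function.Injective (dsym e y) := by
  have h0 : IsManifold 𝓘(ℝ, V) 1 M := IsManifold.of_le (n := ∞) (by simp)
  have h1 := (mdifferentiable_of_mem_atlas (I := 𝓘(ℝ, V)) he).comp_symm_deriv hy
  intro a b hab
  have h2 : ∀ z : V, (show V →L[ℝ] V from mfderiv 𝓘(ℝ, V) 𝓘(ℝ, V) e (e.symm y))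
      (dsym e y z) = z := fun z => congrArg (fun L : V →L[ℝ] V => L z) h1
  rw [← h2 a, ← h2 b, hab]

/-- the components of a metric form an invertible matrix -/
theorem isUnit_comp [IsManifold 𝓘(ℝ, V) ∞ M] {n : ℕ} (v : Basis (Fin n) ℝ V) (g : Tensor V M)
    (hg : ∀ x w, w ≠ 0 → 0 < val g x w w) {e : OpenPartialHomeomorph M V}
    (he : e ∈ atlas V M) {y : V} (hy : y ∈ e.target) : IsUnit (comp v g e y).det := by
  rw [isUnit_iff_ne_zero]
  intro hdet
  obtain ⟨x, hx, hAx⟩ := Matrix.exists_mulVec_eq_zero_iff.mpr hdet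
  set z : V := ∑ i, x i • v i with hz
  have h1 : gAt g (e.symm y) (dsym e y z) (dsym e y z) = 0 := by
    have h2 : gAt g (e.symm y) (dsym e y z) (dsym e y z) =
        ∑ i, x i * (Matrix.mulVec (comp v g e y) x i) := by
      rw [hz]
      simp only [map_sum, map_smul, sum_apply, smul_apply,
        smul_eq_mul, Matrix.mulVec, dotProduct, comp_eq_gAt, Finset.mul_sum]
      rw [Finset.sum_comm]
      refine Finset.sum_congr rfl (fun i _ => Finset.sum_congr rfl (fun j _ => ?_))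
      ring
    rw [h2, hAx]
    simp
  have h3 : z ≠ 0 := by
    intro h4
    apply hx
    have h5 := (Fintype.linearIndependent_iff.mp v.linearIndependent) x h4
    funext i
    exact h5 i
  have h4 : dsym e y z ≠ 0 := by
    intro h5
    exact h3 (dsym_injective he hy (by rw [h5, map_zero]))
  have h5 : 0 < gAt g (e.symm y) (dsym e y z) (dsym e y z) := hg _ _ h4
  rw [h1] at h5
  exact lt_irrefl _ h5

theorem ricci_congr {n : ℕ} (v : Fin n → V) {G G' : V → Matrix (Fin n) (Fin n) ℝ} {y : V}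
    (h : G =ᶠ[𝓝 y] G') (i j : Fin n) : ricci v G i j y = ricci v G' i j y := by
  have h0 : ∀ z, G =ᶠ[𝓝 z] G' → ∀ k a b : Fin n, christoffel v G k a b z =
      christoffel v G' k a b z := by
    intro z hz k a b
    unfold christoffel
    have h1 : ∀ c d e : Fin n, pd v c (fun z => G z d e) z = pd v c (fun z => G' z d e) z :=
      fun c d e => pd_congr_ev (by filter_upwards [hz] with x hx using by rw [hx])
    rw [hz.eq_of_nhds]
    simp only [h1]
  have h1 : ∀ k a b : Fin n, christoffel v G k a b =ᶠ[𝓝 y] christoffel v G' k a b :=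
    fun k a b => by
      filter_upwards [h.eventuallyEq_nhds] with z hz
      exact h0 z hz k a b
  unfold ricci
  congr 1
  · refine Finset.sum_congr rfl (fun k _ => ?_)
    rw [pd_congr_ev (h1 k i j), pd_congr_ev (h1 k i k)]
  · refine Finset.sum_congr rfl (fun k _ => Finset.sum_congr rfl (fun l _ => ?_))
    rw [(h1 k k l).eq_of_nhds, (h1 l i j).eq_of_nhds, (h1 k j l).eq_of_nhds,
      (h1 l i k).eq_of_nhds]

theorem pb_eq (v : Basis (Fin m) ℝ V) (w : Basis (Fin p) ℝ W) :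
    (pb v w : Fin (m + p) → V × W) = fr v w := by
  funext I
  refine Fin.addCases (fun i => ?_) (fun i => ?_) I
  · simp [pb, fr]
  · simp [pb, fr]

/-- The product of two Ricci flows is a Ricci flow. -/
theorem flow_prod [IsManifold 𝓘(ℝ, V) ∞ M] [IsManifold 𝓘(ℝ, W) ∞ N] (v : Basis (Fin m) ℝ V)
    (w : Basis (Fin p) ℝ W) {g : ℝ → Tensor V M} {h : ℝ → Tensor W N} {T : ℝ}
    (hg : IsRicciFlow v g T) (hh : IsRicciFlow w h T) :
    IsRicciFlow (fr (v : Fin m → V) (w : Fin p → W)) (fun t => tp (g t) (h t)) T where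
  symm t ht x a b := by
    have key : ∀ a b : V × W, gAt (tp (g t) (h t)) x a b = gAt (tp (g t) (h t)) x b a := by
      intro a b
      rw [gAt_tp, gAt_tp]
      have h1 : gAt (g t) x.1 a.1 b.1 = gAt (g t) x.1 b.1 a.1 := hg.symm t ht x.1 a.1 b.1
      have h2 : gAt (h t) x.2 a.2 b.2 = gAt (h t) x.2 b.2 a.2 := hh.symm t ht x.2 a.2 b.2
      rw [h1, h2]
    exact key a b
  pos t ht x a ha := by
    have key : ∀ a : V × W, a ≠ 0 → 0 < gAt (tp (g t) (h t)) x a a := by
      intro a ha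
      rw [gAt_tp]
      have p1 : ∀ z : V, z ≠ 0 → 0 < gAt (g t) x.1 z z := fun z hz => hg.pos t ht x.1 z hz
      have p2 : ∀ z : W, z ≠ 0 → 0 < gAt (h t) x.2 z z := fun z hz => hh.pos t ht x.2 z hz
      have q1 : 0 ≤ gAt (g t) x.1 a.1 a.1 := by
        rcases eq_or_ne a.1 0 with h0 | h0
        · rw [h0]; simp
        · exact (p1 _ h0).le
      have q2 : 0 ≤ gAt (h t) x.2 a.2 a.2 := by
        rcases eq_or_ne a.2 0 with h0 | h0
        · rw [h0]; simp
        · exact (p2 _ h0).le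
      by_cases h1 : a.1 = 0
      · have h2 : a.2 ≠ 0 := fun h2 => ha (Prod.ext h1 h2)
        linarith [p2 _ h2]
      · linarith [p1 _ h1]
    exact key a ha
  smooth e he I J := by
    obtain ⟨e1, h1, e2, h2, ht, hs⟩ := mem_patlas he
    have key : ∀ z ∈ Ico 0 T ×ˢ e.target, comp (fr (v : Fin m → V) (w : Fin p → W))
        (tp (g z.1) (h z.1)) e z.2 I J =
        blk (comp v (g z.1) e1 z.2.1) (comp w (h z.1) e2 z.2.2) I J := by
      intro z hz
      rw [ht] at hz
      rw [comp_tp (v : Fin m → V) (w : Fin p → W) h1 h2 hz.2.1 hz.2.2 hs (g z.1) (h z.1)]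
    refine ContDiffOn.congr ?_ key
    rw [ht]
    refine Fin.addCases (fun i => ?_) (fun i => ?_) I <;>
    refine Fin.addCases (fun j => ?_) (fun j => ?_) J
    · simp only [blk_ll]
      have h2 := hg.smooth e1 h1 i j
      have h3 : ContDiffOn ℝ ∞ (fun z : ℝ × (V × W) => ((z.1, z.2.1) : ℝ × V))
          (Ico 0 T ×ˢ (e1.target ×ˢ e2.target)) := by fun_prop
      exact h2.comp h3 (fun z hz => ⟨hz.1, hz.2.1⟩)
    · simp only [blk_lr]; exact contDiffOn_const
    · simp only [blk_rl]; exact contDiffOn_const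
    · simp only [blk_rr]
      have h2 := hh.smooth e2 h2 i j
      have h3 : ContDiffOn ℝ ∞ (fun z : ℝ × (V × W) => ((z.1, z.2.2) : ℝ × W))
          (Ico 0 T ×ˢ (e1.target ×ˢ e2.target)) := by fun_prop
      exact h2.comp h3 (fun z hz => ⟨hz.1, hz.2.2⟩)
  flow e he y hy I J t ht := by
    obtain ⟨e1, h1, e2, h2, htg, hs⟩ := mem_patlas he
    rw [htg] at hy
    have key : ∀ r, comp (fr (v : Fin m → V) (w : Fin p → W)) (tp (g r) (h r)) e y I J =
        blk (comp v (g r) e1 y.1) (comp w (h r) e2 y.2) I J := by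
      intro r
      rw [comp_tp (v : Fin m → V) (w : Fin p → W) h1 h2 hy.1 hy.2 hs (g r) (h r)]
    have hric := ricci_congr (fr (v : Fin m → V) (w : Fin p → W))
      (comp_event (v : Fin m → V) (w : Fin p → W) h1 h2 hy.1 hy.2 hs (g t) (h t)) I J
    rw [ricci_pm (v : Fin m → V) (w : Fin p → W) e1.open_target e2.open_target
      (fun z hz => isUnit_comp v (g t) (hg.pos t ht) h1 hz)
      (fun z hz => isUnit_comp w (h t) (hh.pos t ht) h2 hz) hy.1 hy.2] at hric
    simp only [key]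
    rw [hric]
    refine Fin.addCases (fun i => ?_) (fun i => ?_) I <;>
    refine Fin.addCases (fun j => ?_) (fun j => ?_) J
    · simp only [blk_ll, Matrix.of_apply]
      exact hg.flow e1 h1 y.1 hy.1 i j t ht
    · simp only [blk_lr, mul_zero]; exact hasDerivWithinAt_const _ _ _
    · simp only [blk_rl, mul_zero]; exact hasDerivWithinAt_const _ _ _
    · simp only [blk_rr, Matrix.of_apply]
      exact hh.flow e2 h2 y.2 hy.2 i j t ht

/-- The scalar curvature of a product. -/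
theorem scal_prod [IsManifold 𝓘(ℝ, V) ∞ M] [IsManifold 𝓘(ℝ, W) ∞ N] (v : Basis (Fin m) ℝ V)
    (w : Basis (Fin p) ℝ W) {g : Tensor V M} {h : Tensor W N}
    (hg : ∀ x w, w ≠ 0 → 0 < val g x w w) (hh : ∀ x w, w ≠ 0 → 0 < val h x w w) (x : M × N) :
    scalarCurvature (fr (v : Fin m → V) (w : Fin p → W)) (tp g h) x =
      scalarCurvature v g x.1 + scalarCurvature w h x.2 := by
  have hs : ∀ y : V × W, (chartAt (V × W) x).symm y =
      ((chartAt V x.1).symm y.1, (chartAt W x.2).symm y.2) := fun y => rfl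
  have hy : ((chartAt (V × W) x) x).1 ∈ (chartAt V x.1).target := mem_chart_target V x.1
  have hy' : ((chartAt (V × W) x) x).2 ∈ (chartAt W x.2).target := mem_chart_target W x.2
  have h1 := comp_event (v : Fin m → V) (w : Fin p → W) (chart_mem_atlas V x.1)
    (chart_mem_atlas W x.2) hy hy' hs g h
  have h2 := scal_pm (v : Fin m → V) (w : Fin p → W) (chartAt V x.1).open_target
    (chartAt W x.2).open_target
    (fun z hz => isUnit_comp v g hg (chart_mem_atlas V x.1) hz)
    (fun z hz => isUnit_comp w h hh (chart_mem_atlas W x.2) hz) hy hy'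
  unfold scalarCurvature
  rw [h1.eq_of_nhds]
  simp only [ricci_congr (fr (v : Fin m → V) (w : Fin p → W)) h1]
  rw [h2]
  rfl

end Vale.Agent.P244.H426
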