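import Vale.Agent.P244.H426.Prod

/-! # P244 / H426 / Scale : parabolic scaling of Ricci flows -/

open scoped Manifold ContDiff Topology
open Set Module Filter

set_option linter.unusedSectionVars false

namespace Vale.Agent.P244.H426

open Vale.Agent.P244.Flow

variable {V : Type*} [NormedAddCommGroup V] [NormedSpace ℝ V] {n : ℕ}
  {M : Type*} [TopologicalSpace M] [ChartedSpace V M]

/-- the tensor `c g` -/
noncomputable def csm (c : ℝ) (g : Tensor V M) : Tensor V M := fun x => c • g x

/-- the rescaled flow `t ↦ c g(t / c)` -/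
noncomputable def csf (c : ℝ) (g : ℝ → Tensor V M) (t : ℝ) : Tensor V M := csm c (g (t / c))

theorem val_csm (c : ℝ) (g : Tensor V M) (x : M) (u w : TangentSpace 𝓘(ℝ, V) x) :
    val (csm c g) x u w = c * val g x u w := rfl

theorem comp_csm (v : Fin n → V) (c : ℝ) (g : Tensor V M) (e : OpenPartialHomeomorph M V)
    (y : V) : comp v (csm c g) e y = c • comp v g e y := rfl

theorem christoffel_csm (v : Fin n → V) {c : ℝ} (hc : c ≠ 0) (G : V → Matrix (Fin n) (Fin n) ℝ)
    (k i j : Fin n) (y : V) :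
    christoffel v (fun z => c • G z) k i j y = christoffel v G k i j y := by
  have h1 : ∀ a b d : Fin n, pd v a (fun z => c * G z b d) y =
      c * pd v a (fun z => G z b d) y := by
    intro a b d
    unfold pd
    have h2 : (fun z => c * G z b d) = c • fun z => G z b d := by
      funext z; rfl
    rw [h2, fderiv_const_smul_field]
    rfl
  unfold christoffel
  have hinv : (c • G y)⁻¹ = c⁻¹ • (G y)⁻¹ := by
    by_cases hd : IsUnit (G y).det
    · apply Matrix.inv_eq_right_inv
      rw [Matrix.smul_mul, Matrix.mul_smul, smul_smul, mul_inv_cancel₀ hc, one_smul,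
        Matrix.mul_nonsing_inv _ hd]
    · have h3 : ¬ IsUnit (c • G y).det := by
        rw [Matrix.det_smul, isUnit_iff_ne_zero]
        rw [isUnit_iff_ne_zero] at hd
        push Not at hd ⊢
        rw [hd, mul_zero]
      rw [Matrix.nonsing_inv_apply_not_isUnit _ hd, Matrix.nonsing_inv_apply_not_isUnit _ h3,
        smul_zero]
  simp only [hinv, Matrix.smul_apply, smul_eq_mul, h1]
  congr 1
  refine Finset.sum_congr rfl fun l _ => ?_
  field_simp

theorem ricci_csm (v : Fin n → V) {c : ℝ} (hc : c ≠ 0) (G : V → Matrix (Fin n) (Fin n) ℝ)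
    (i j : Fin n) (y : V) : ricci v (fun z => c • G z) i j y = ricci v G i j y := by
  have h : ∀ k i j, christoffel v (fun z => c • G z) k i j = christoffel v G k i j := by
    intro k i j
    funext z
    exact christoffel_csm v hc G k i j z
  unfold ricci
  simp only [h]

theorem flow_csf (v : Fin n → V) {c : ℝ} (hc : 0 < c) {g : ℝ → Tensor V M} {T : ℝ}
    (hg : IsRicciFlow v g T) : IsRicciFlow v (csf c g) (c * T) where
  symm t ht x u w := by
    have ht' : t / c ∈ Ico 0 T := ⟨div_nonneg ht.1 hc.le, by rw [div_lt_iff₀ hc]; linarith [ht.2]⟩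
    show val (csm c (g (t / c))) x u w = val (csm c (g (t / c))) x w u
    rw [val_csm, val_csm, hg.symm _ ht']
  pos t ht x w hw := by
    have ht' : t / c ∈ Ico 0 T := ⟨div_nonneg ht.1 hc.le, by rw [div_lt_iff₀ hc]; linarith [ht.2]⟩
    show 0 < val (csm c (g (t / c))) x w w
    rw [val_csm]
    exact mul_pos hc (hg.pos _ ht' x w hw)
  smooth e he i j := by
    have h1 := hg.smooth e he i j
    have h2 : ContDiffOn ℝ ∞ (fun z : ℝ × V => ((z.1 / c, z.2) : ℝ × V))
        (Ico 0 (c * T) ×ˢ e.target) := by fun_prop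
    have h3 : MapsTo (fun z : ℝ × V => ((z.1 / c, z.2) : ℝ × V)) (Ico 0 (c * T) ×ˢ e.target)
        (Ico 0 T ×ˢ e.target) := by
      rintro z ⟨hz1, hz2⟩
      exact ⟨⟨div_nonneg hz1.1 hc.le, by rw [div_lt_iff₀ hc]; linarith [hz1.2]⟩, hz2⟩
    exact contDiffOn_const.mul (h1.comp h2 h3)
  flow e he y hy i j t ht := by
    have ht' : t / c ∈ Ico 0 T := ⟨div_nonneg ht.1 hc.le, by rw [div_lt_iff₀ hc]; linarith [ht.2]⟩
    have h1 := hg.flow e he y hy i j (t / c) ht'
    have h2 : HasDerivWithinAt (fun s : ℝ => s / c) (1 / c) (Ico 0 (c * T)) t :=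
      (hasDerivWithinAt_id t _).div_const c
    have h3 : MapsTo (fun s : ℝ => s / c) (Ico 0 (c * T)) (Ico 0 T) := fun s hs =>
      ⟨div_nonneg hs.1 hc.le, by rw [div_lt_iff₀ hc]; linarith [hs.2]⟩
    have h4 := (HasDerivWithinAt.comp t h1 h2 h3).const_mul c
    have h5 : ricci v (comp v (csf c g t) e) i j y = ricci v (comp v (g (t / c)) e) i j y :=
      ricci_csm v hc.ne' (comp v (g (t / c)) e) i j y
    rw [h5]
    refine h4.congr_deriv ?_
    field_simp

theorem scal_csm (v : Fin n → V) {c : ℝ} (hc : c ≠ 0) (g : Tensor V M) (x : M) :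
    scalarCurvature v (csm c g) x = c⁻¹ * scalarCurvature v g x := by
  have hinv : ∀ A : Matrix (Fin n) (Fin n) ℝ, (c • A)⁻¹ = c⁻¹ • A⁻¹ := by
    intro A
    by_cases hd : IsUnit A.det
    · apply Matrix.inv_eq_right_inv
      rw [Matrix.smul_mul, Matrix.mul_smul, smul_smul, mul_inv_cancel₀ hc, one_smul,
        Matrix.mul_nonsing_inv _ hd]
    · have h3 : ¬ IsUnit (c • A).det := by
        rw [Matrix.det_smul, isUnit_iff_ne_zero]
        rw [isUnit_iff_ne_zero] at hd
        push Not at hd ⊢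
        rw [hd, mul_zero]
      rw [Matrix.nonsing_inv_apply_not_isUnit _ hd, Matrix.nonsing_inv_apply_not_isUnit _ h3,
        smul_zero]
  unfold scalarCurvature
  have h1 : ∀ i j, ricci v (comp v (csm c g) (chartAt V x)) i j (chartAt V x x) =
      ricci v (comp v g (chartAt V x)) i j (chartAt V x x) := fun i j =>
    ricci_csm v hc (comp v g (chartAt V x)) i j _
  simp only [h1, comp_csm, hinv, Matrix.smul_apply, smul_eq_mul, Finset.mul_sum, mul_assoc]

theorem flow_mono (v : Fin n → V) {g : ℝ → Tensor V M} {T T' : ℝ} (hT : T' ≤ T)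
    (hg : IsRicciFlow v g T) : IsRicciFlow v g T' where
  symm t ht := hg.symm t ⟨ht.1, ht.2.trans_le hT⟩
  pos t ht := hg.pos t ⟨ht.1, ht.2.trans_le hT⟩
  smooth e he i j := (hg.smooth e he i j).mono
    (prod_mono (Ico_subset_Ico_right hT) subset_rfl)
  flow e he y hy i j t ht := (hg.flow e he y hy i j t ⟨ht.1, ht.2.trans_le hT⟩).mono
    (Ico_subset_Ico_right hT)

theorem Degenerates.csf {g : ℝ → Tensor V M} {T : ℝ} (h : Degenerates g T) {c : ℝ}
    (hc : 0 < c) : Degenerates (H426.csf c g) (c * T) := by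
  obtain ⟨x, u, hu, h⟩ := h
  refine ⟨x, u, hu, fun δ hδ => ?_⟩
  obtain ⟨t, ht, hlt⟩ := h (δ / c) (div_pos hδ hc)
  refine ⟨c * t, ⟨mul_nonneg hc.le ht.1, mul_lt_mul_of_pos_left ht.2 hc⟩, ?_⟩
  show val (csm c (g (c * t / c))) x u u < δ
  rw [mul_div_cancel_left₀ _ hc.ne', val_csm]
  rw [lt_div_iff₀ hc] at hlt
  linarith

/-- A degenerating flow does not extend. -/
theorem Degenerates.not_extends [IsManifold 𝓘(ℝ, V) ∞ M] (v : Basis (Fin n) ℝ V)
    {g : ℝ → Tensor V M} {T : ℝ} (hT : 0 < T) (hd : Degenerates g T) :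
    ¬ ExtendsPast v g T := by
  rintro ⟨ε, hε, g', hg', hext⟩
  obtain ⟨x, u, hu, hd⟩ := hd
  -- write `u` in the preferred chart
  set e := chartAt V x with he
  have hatl : e ∈ atlas V M := chart_mem_atlas V x
  set y := e x with hy
  have hyt : y ∈ e.target := mem_chart_target V x
  have hxy : e.symm y = x := e.left_inv (mem_chart_source V x)
  have h0 : IsManifold 𝓘(ℝ, V) 1 M := IsManifold.of_le (n := ∞) (by simp)
  obtain ⟨z, hz⟩ : ∃ z : V, dsym e y z = (u : V) := by
    have h1 := (mdifferentiable_chart (I := 𝓘(ℝ, V)) x).symm_comp_deriv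
      (mem_chart_source V x)
    refine ⟨mfderiv 𝓘(ℝ, V) 𝓘(ℝ, V) (chartAt V x) x u, ?_⟩
    have h2 := congrArg (fun L => L u) h1
    exact h2
  have hval : ∀ t, val (g' t) x u u = ∑ i, ∑ j, v.repr z i * (v.repr z j * comp v (g' t) e y i j) := by
    intro t
    have key : ∀ (x' : M) (hx : e.symm y = x'), gAt (g' t) x' (dsym e y z) (dsym e y z) =
        ∑ i, ∑ j, v.repr z i * (v.repr z j * comp v (g' t) e y i j) := by
      rintro x' rfl
      have hz' : z = ∑ i, v.repr z i • v i := (v.sum_repr z).symm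
      conv_lhs => rw [hz']
      simp only [map_sum, map_smul, sum_apply, smul_apply, smul_eq_mul, comp_eq_gAt,
        Finset.mul_sum]
      rw [Finset.sum_comm]
      refine Finset.sum_congr rfl (fun i _ => Finset.sum_congr rfl (fun j _ => ?_))
      ring
    have h3 := key x hxy
    rw [hz] at h3
    exact h3
  have hcont : ContinuousOn (fun t : ℝ => val (g' t) x u u) (Icc 0 T) := by
    simp only [hval]
    refine continuousOn_finsetSum _ fun i _ => continuousOn_finsetSum _ fun j _ => ?_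
    refine continuousOn_const.mul (continuousOn_const.mul ?_)
    have h1 := (hg'.smooth e hatl i j).continuousOn
    have h2 : ContinuousOn (fun t : ℝ => (t, y)) (Icc 0 T) := by fun_prop
    refine h1.comp h2 ?_
    intro t ht'
    exact ⟨⟨ht'.1, by have := ht'.2; linarith only [hε, this]⟩, hyt⟩
  have hpos : ∀ t ∈ Icc 0 T, 0 < val (g' t) x u u := by
    intro t ht'
    exact hg'.pos t ⟨ht'.1, by have := ht'.2; linarith⟩ _ _ hu
  obtain ⟨t0, ht0, hmin⟩ := (isCompact_Icc (a := (0 : ℝ)) (b := T)).exists_isMinOn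
    (nonempty_Icc.mpr hT.le) hcont
  obtain ⟨t, ht', hlt⟩ := hd _ (hpos t0 ht0)
  have h1 : val (g' t0) x u u ≤ val (g' t) x u u := hmin (show t ∈ Icc 0 T from ⟨ht'.1, ht'.2.le⟩)
  rw [hext t ht'] at h1
  exact absurd h1 (not_le.mpr hlt)

end Vale.Agent.P244.H426
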